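import Vale.Agent.P076.ASM.Pl

/-! # P076 / ASM : clusters (single linkage) and lattice counts -/

open MeasureTheory Complex Set Vale.Agent.P122.C2

set_option linter.all false

namespace Vale.Agent.P076.ASM

theorem walk_dist {V : Type*} {G : SimpleGraph V} {X : Type*} [NormedAddCommGroup X] (m : V → X) {r : ℝ}
    (h : ∀ a b, G.Adj a b → ‖m a - m b‖ ≤ r) : ∀ {u v : V} (p : G.Walk u v), ‖m u - m v‖ ≤ p.length * r := by
  intro u v p
  induction p with
  | nil => simp
  | cons hadj p ih =>
    rename_i a b c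
    rw [SimpleGraph.Walk.length_cons]
    push_cast
    calc ‖m a - m c‖ ≤ ‖m a - m b‖ + ‖m b - m c‖ := norm_sub_le_norm_sub_add_norm_sub _ _ _
      _ ≤ r + p.length * r := add_le_add (h _ _ hadj) ih
      _ = (p.length + 1) * r := by ring

/-- single linkage -/
theorem cluster {X : Type*} [NormedAddCommGroup X] (V : Finset ℕ) (m : ℕ → X) {r : ℝ} (hr : 0 ≤ r) : ∃ cl : ℕ → ℕ,
    (∀ i ∈ V, cl i ∈ V ∧ ‖m i - m (cl i)‖ ≤ V.card * r) ∧
    ∀ i ∈ V, ∀ j ∈ V, cl i ≠ cl j → r < ‖m i - m j‖ := by
  classical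
  let G : SimpleGraph V := SimpleGraph.fromRel fun a b : V => ‖m a - m b‖ ≤ r
  have hG : ∀ a b : V, G.Adj a b → ‖m a - m b‖ ≤ r := by
    intro a b hab
    rw [SimpleGraph.fromRel_adj] at hab
    rcases hab.2 with h | h
    · exact h
    · rw [norm_sub_rev]; exact h
  let rep : V → V := fun a => (G.connectedComponentMk a).out
  have hrep : ∀ a, G.Reachable a (rep a) := by
    intro a
    have h : G.connectedComponentMk (rep a) = G.connectedComponentMk a := Quot.out_eq _
    exact (SimpleGraph.ConnectedComponent.exact h).symm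
  refine ⟨fun i => if h : i ∈ V then (rep ⟨i, h⟩).1 else i, ?_, ?_⟩
  · intro i hi
    simp only [hi, dif_pos]
    refine ⟨(rep ⟨i, hi⟩).2, ?_⟩
    obtain ⟨p, hp⟩ := (hrep ⟨i, hi⟩).exists_isPath
    have h1 := walk_dist (fun a : V => m a) hG p
    have h2 : p.length < Fintype.card V := hp.length_lt
    rw [Fintype.card_coe] at h2
    refine h1.trans (mul_le_mul_of_nonneg_right ?_ hr)
    exact_mod_cast h2.le
  · intro i hi j hj hne
    simp only [hi, hj, dif_pos] at hne
    by_contra hcon
    push Not at hcon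
    apply hne
    by_cases hij : i = j
    · subst hij; rfl
    have hadj : G.Adj ⟨i, hi⟩ ⟨j, hj⟩ := by
      rw [SimpleGraph.fromRel_adj]
      exact ⟨fun h => hij (congrArg Subtype.val h), Or.inl hcon⟩
    have h : G.connectedComponentMk ⟨i, hi⟩ = G.connectedComponentMk ⟨j, hj⟩ :=
      SimpleGraph.ConnectedComponent.sound hadj.reachable
    change ((G.connectedComponentMk ⟨i, hi⟩).out).1 = ((G.connectedComponentMk ⟨j, hj⟩).out).1
    rw [h]

/-! ## lattice counts -/

theorem card_Icc_le {a b : ℝ} (hab : a ≤ b) : (((Finset.Icc ⌈a⌉ ⌊b⌋).card : ℕ) : ℝ) ≤ b - a + 1 := by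
  rw [Int.card_Icc]
  have h4 : (((⌊b⌋ + 1 - ⌈a⌉).toNat : ℕ) : ℝ) = ((max (⌊b⌋ + 1 - ⌈a⌉) 0 : ℤ) : ℝ) := by
    rw [← Int.ofNat_toNat]
    exact (Int.cast_natCast _).symm
  rw [h4]
  push_cast
  rw [max_le_iff]
  constructor
  · have h5 := Int.floor_le b
    have h6 := Int.le_ceil a
    linarith
  · linarith

/-- lattice points of a strip in a ball -/
theorem strip_count (A : Finset (Fin 2 → ℤ)) {R w : ℝ} (hR : 0 ≤ R) (hw : 0 ≤ w) (θ b : ℝ)
    (h1 : ∀ k ∈ A, ‖lp k‖ ≤ R) (h2 : ∀ k ∈ A, |nx θ (lp k) - b| ≤ w) : (A.card : ℝ) ≤ (2 * R + 1) * (4 * w + 1) := by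
  classical
  -- one of the two coefficients is at least 1/2
  have key : ∀ (s c : ℝ) (i j : Fin 2), i ≠ j → 1 / 2 ≤ |c| → (∀ k ∈ A, |s * (k i : ℝ) + c * (k j : ℝ) - b| ≤ w) →
      (A.card : ℝ) ≤ (2 * R + 1) * (4 * w + 1) := by
    intro s c i j hij hc hk
    have hij2 : ∀ l : Fin 2, l = i ∨ l = j := by
      intro l
      fin_cases i <;> fin_cases j <;> fin_cases l <;> simp_all
    have hc0 : 0 < |c| := by linarith
    have hcne : c ≠ 0 := abs_pos.1 hc0
    have hcard : (A.card : ℝ) = ∑ a ∈ A.image (fun k => k i), ((A.filter fun k => k i = a).card : ℝ) := by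
      exact_mod_cast Finset.card_eq_sum_card_image (fun k : Fin 2 → ℤ => k i) A
    have hfib : ∀ a ∈ A.image (fun k => k i), ((A.filter fun k => k i = a).card : ℝ) ≤ 4 * w + 1 := by
      intro a _
      have hsub : (A.filter fun k => k i = a).image (fun k => k j) ⊆
          Finset.Icc ⌈(b - s * a) / c - 2 * w⌉ ⌊(b - s * a) / c + 2 * w⌋ := by
        intro l hl
        rw [Finset.mem_image] at hl
        obtain ⟨k, hk1, rfl⟩ := hl
        rw [Finset.mem_filter] at hk1
        have h3 := hk k hk1.1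
        rw [hk1.2] at h3
        have h4 : |(k j : ℝ) - (b - s * a) / c| ≤ 2 * w := by
          have h5 : (k j : ℝ) - (b - s * a) / c = (s * a + c * (k j : ℝ) - b) / c := by field_simp; ring
          rw [h5, abs_div, div_le_iff₀ hc0]
          nlinarith
        rw [abs_le] at h4
        rw [Finset.mem_Icc, Int.ceil_le, Int.le_floor]
        constructor <;> linarith
      have hinj : ((A.filter fun k => k i = a).image (fun k => k j)).card = (A.filter fun k => k i = a).card := by
        apply Finset.card_image_of_injOn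
        intro k hk k' hk' heq
        rw [Finset.mem_coe, Finset.mem_filter] at hk hk'
        ext l
        rcases hij2 l with rfl | rfl
        · rw [hk.2, hk'.2]
        · exact heq
      rw [← hinj]
      have h6 := Finset.card_le_card hsub
      have h7 := card_Icc_le (a := (b - s * a) / c - 2 * w) (b := (b - s * a) / c + 2 * w) (by linarith)
      have h8 : ((((A.filter fun k => k i = a).image (fun k => k j)).card : ℕ) : ℝ) ≤
          (((Finset.Icc ⌈(b - s * a) / c - 2 * w⌉ ⌊(b - s * a) / c + 2 * w⌋).card : ℕ) : ℝ) := by exact_mod_cast h6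
      linarith
    have himg : ((A.image (fun k => k i)).card : ℝ) ≤ 2 * R + 1 := by
      have hsub : A.image (fun k => k i) ⊆ Finset.Icc ⌈-R⌉ ⌊R⌋ := by
        intro l hl
        rw [Finset.mem_image] at hl
        obtain ⟨k, hk1, rfl⟩ := hl
        have h3 := (abs_apply_le (lp k) i).trans (h1 k hk1)
        have h4 : (lp k) i = (k i : ℝ) := rfl
        rw [h4, abs_le] at h3
        rw [Finset.mem_Icc, Int.ceil_le, Int.le_floor]
        exact h3
      have h6 := Finset.card_le_card hsub
      have h7 := card_Icc_le (a := -R) (b := R) (by linarith)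
      have h8 : ((A.image (fun k => k i)).card : ℝ) ≤ (((Finset.Icc ⌈-R⌉ ⌊R⌋).card : ℕ) : ℝ) := by exact_mod_cast h6
      linarith
    rw [hcard]
    calc ∑ a ∈ A.image (fun k => k i), ((A.filter fun k => k i = a).card : ℝ) ≤ ∑ a ∈ A.image (fun k => k i), (4 * w + 1) :=
          Finset.sum_le_sum hfib
      _ = (A.image (fun k => k i)).card * (4 * w + 1) := by rw [Finset.sum_const, nsmul_eq_mul]
      _ ≤ (2 * R + 1) * (4 * w + 1) := mul_le_mul_of_nonneg_right himg (by linarith)
  have hsc := Real.sin_sq_add_cos_sq θ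
  rcases le_or_gt (1 / 2) |Real.cos θ| with hc | hc
  · refine key (-Real.sin θ) (Real.cos θ) 0 1 (by norm_num) hc fun k hk => ?_
    exact h2 k hk
  · have hs : 1 / 2 ≤ |Real.sin θ| := by
      by_contra hcon
      push Not at hcon
      have h3 : Real.cos θ ^ 2 < (1 / 2) ^ 2 := by
        rw [← sq_abs]; exact pow_lt_pow_left₀ hc (abs_nonneg _) (by norm_num)
      have h4 : Real.sin θ ^ 2 < (1 / 2) ^ 2 := by
        rw [← sq_abs]; exact pow_lt_pow_left₀ hcon (abs_nonneg _) (by norm_num)
      linarith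
    refine key (Real.cos θ) (-Real.sin θ) 1 0 (by norm_num) (by rwa [abs_neg]) fun k hk => ?_
    have := h2 k hk
    have h5 : Real.cos θ * (k 1 : ℝ) + -Real.sin θ * (k 0 : ℝ) - b = nx θ (lp k) - b := by
      rw [nx_eq]
      unfold lp
      simp only
      ring
    rw [h5]
    exact this

end Vale.Agent.P076.ASM
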