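import Vale.Agent.P122.C.Defs2
import Vale.Agent.P076.Bdl.All

/-! # P076 / ASM : interface of the assembly (helper919), n = 2, version 3.1

`StS` (single scale) follows from `StTS` (thick slab, lossless) and `StNSf` (no thick plate => power gain, function level).
`StNS` is a possible Amp level form of `StNSf` (any other source is fine: the assembly only uses `StNSf`). -/

open MeasureTheory Complex FourierTransform Vale.Agent.P122.C2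

namespace Vale.Agent.P076.ASM

/-- lattice point -/
noncomputable def lp (k : Fin 2 → ℤ) : E 2 := WithLp.toLp 2 fun i => (k i : ℝ)

/-- bounded measurable frequency data in the ball of radius `r` -/
structure Bd (r : ℝ) (G : E 2 → ℂ) : Prop where
  meas : Measurable G
  bdd : ∃ b : ℝ, ∀ η, ‖G η‖ ≤ b
  supp : ∀ η, G η ≠ 0 → ‖η‖ ≤ r

/-- graph data: one time `t k` for each lattice point `k ∈ A`, all in the ball of radius `R`; `|u| ≥ α` there.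
`evo G x t 0 = ∫ e^{2πi(x·η - t|η|²)} G η dη`. -/
structure Gr (R : ℝ) (G : E 2 → ℂ) (A : Finset (Fin 2 → ℤ)) (t : (Fin 2 → ℤ) → ℝ) (α : ℝ) : Prop where
  pos : ∀ k ∈ A, ‖lp k‖ ≤ R
  t0 : ∀ k ∈ A, 0 ≤ t k
  tR : ∀ k ∈ A, t k ≤ R
  big : ∀ k ∈ A, α ≤ ‖evo G (lp k) (t k) 0‖

/-- **(S)** single scale bound, lossless, with a gain for small sets -/
def StS : Prop := ∃ C δ : ℝ, 0 < δ ∧ ∀ (R : ℝ) (G : E 2 → ℂ) (A : Finset (Fin 2 → ℤ)) (t : (Fin 2 → ℤ) → ℝ) (α : ℝ),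
  1 ≤ R → 0 ≤ α → Bd 1 G → Gr R G A t α →
    α ^ 2 * A.card ≤ C * R ^ (2 / 3 : ℝ) * ((A.card : ℝ) / R ^ 2) ^ δ * ∫ η, ‖G η‖ ^ 2

/-- **(TS)** thick slab: the same for data in a strip of width `R^(c - 1/2)` (and in the ball of radius 2) -/
def StTS : Prop := ∃ c C δ : ℝ, 0 < c ∧ 0 < δ ∧ ∀ (R : ℝ) (G : E 2 → ℂ) (A : Finset (Fin 2 → ℤ)) (t : (Fin 2 → ℤ) → ℝ)
  (α θ b : ℝ), 1 ≤ R → 0 ≤ α → Bd 2 G → Gr R G A t α → (∀ η, G η ≠ 0 → |fn θ (fun i => η i) - b| ≤ R ^ (c - 1 / 2)) →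
    α ^ 2 * A.card ≤ C * R ^ (2 / 3 : ℝ) * ((A.card : ℝ) / R ^ 2) ^ δ * ∫ η, ‖G η‖ ^ 2

/-- pieces: `H τ` supported near the frequency cell `2η ∈ (τ + [0,1)²)/L` -/
structure Fam (L c0 : ℝ) (T : Finset (Fin 2 → ℤ)) (H : (Fin 2 → ℤ) → E 2 → ℂ) : Prop where
  bd : ∀ τ ∈ T, Bd 2 (H τ)
  cell : ∀ τ ∈ T, ∀ η, H τ η ≠ 0 → ∀ k, |2 * η k - τ k / L| ≤ c0 / L

/-- mass of the pieces in the plate `|fn θ x - b - v t| ≤ p L`, `t ∈ [0, L²]`, localised to `|x| ≤ L²` -/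
noncomputable def plm (p L θ v b : ℝ) (T : Finset (Fin 2 → ℤ)) (H : (Fin 2 → ℤ) → E 2 → ℂ) : ℝ :=
  ∑ τ ∈ T.filter (fun τ => |fn θ (fun k => (τ k : ℝ) / L) - v| ≤ p / L),
    ∫ y : E 2, ‖(𝓕⁻ (H τ) : E 2 → ℂ) y‖ ^ 2 * ((1 + |fn θ (fun k => y k) - b| / (p * L) + ‖y‖ / L ^ 2) ^ 4)⁻¹

/-- **(NSf)** no thick plate: power gain.  `L = 2^(K n)`, `R = L²`. -/
def StNSf : Prop := ∀ c : ℝ, 0 < c → ∃ κ : ℝ, 0 < κ ∧ ∃ K : ℕ, 1 ≤ K ∧ ∀ c0 : ℝ, 1 ≤ c0 → ∃ C' : ℝ, 0 ≤ C' ∧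
  ∀ (n : ℕ) (L : ℝ) (T : Finset (Fin 2 → ℤ)) (H : (Fin 2 → ℤ) → E 2 → ℂ) (Q α : ℝ) (A : Finset (Fin 2 → ℤ))
    (t : (Fin 2 → ℤ) → ℝ), L = 2 ^ (K * n) → Fam L c0 T H → ∑ τ ∈ T, ∫ η, ‖H τ η‖ ^ 2 ≤ Q →
    (∀ θ v b : ℝ, plm (L ^ c) L θ v b T H ≤ L ^ (-c) * Q) → 0 ≤ α → Gr (L ^ 2) (fun η => ∑ τ ∈ T, H τ η) A t α →
      α ^ 2 * A.card ≤ C' * L ^ (4 / 3 - κ : ℝ) * Q

/-- **the assembly** -/
def StASM : Prop := StTS → StNSf → StS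

/-! ## the lossy half, for multiscale amplitudes (`R = 2^(2 K n)`, `L = 2^(K n)`) -/

/-- `X` is 2-dimensional: at most `B 4^j` points in a dyadic cube of side `2^j` -/
def Dim2 (B : ℝ) (X : Finset Nd) : Prop := ∀ (j : ℕ) (p : Z2) (q : ℤ),
  ((X.filter fun x => (∀ k, x.o k / 2 ^ j = p k) ∧ x.T / 2 ^ j = q).card : ℝ) ≤ B * 4 ^ j

/-- the points: unit nodes in the slab of times `[0, R)` with amplitude `≥ α` -/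
structure Pts {C : ℝ} {n K : ℕ} (F : Amp C n K) (B α : ℝ) (X : Finset Nd) : Prop where
  cap : ∀ x ∈ X, x.τ = 0
  t0 : ∀ x ∈ X, 0 ≤ x.T
  tR : ∀ x ∈ X, x.T < 2 ^ (2 * K * n)
  dim : Dim2 B X
  big : ∀ x ∈ X, α ≤ F.a 0 x

/-- the mass of `F` in every plate of thickness `2^(c K n) L` is at most `2^(-c K n) Q` -/
def NoPl {C : ℝ} {n K : ℕ} (F : Amp C n K) (c Q : ℝ) : Prop := ∀ (θ v b : ℝ) (U : Finset Nd),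
  (∀ S ∈ U, |fn θ (F.s K S.τ) - v| ≤ 2 ^ (c * (K * n)) / 2 ^ (K * n) ∧ |fn θ (fun k => (S.o k : ℝ)) - b| ≤ 2 ^ (c * (K * n))) →
    ∑ S ∈ U, F.a K S ^ 2 ≤ 2 ^ (-c * (K * n)) * Q

/-- **(NS)** no thick plate: power gain -/
def StNS : Prop := ∀ c : ℝ, 0 < c → ∃ κ : ℝ, 0 < κ ∧ ∃ K : ℕ, 1 ≤ K ∧ ∀ C B : ℝ, 1 ≤ C → 1 ≤ B → ∃ C' : ℝ, 0 ≤ C' ∧
  ∀ (n : ℕ) (F : Amp C n K) (Q α : ℝ) (X : Finset Nd), (∀ U : Finset Nd, ∑ S ∈ U, F.a K S ^ 2 ≤ Q) → 0 ≤ α →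
    NoPl F c Q → Pts F B α X → α ^ 2 * X.card ≤ C' * 2 ^ ((4 / 3 - κ) * (K * n)) * (2 ^ (2 * K * n) * Q)

/-- **the bridge** -/
def StBR : Prop := StNS → StNSf

end Vale.Agent.P076.ASM
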