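import Vale.Agent.P076.ASM.Loc
import Vale.Agent.P076.ASM.Cl

/-! # P076 / ASM : strips of the clusters, exceptional points -/

open MeasureTheory Complex FourierTransform Convolution Set Vale.Agent.P122.C2

set_option linter.all false

namespace Vale.Agent.P076.ASM

theorem pc_empty {L : ℝ} (G : E 2 → ℂ) (η : E 2) : pc L ∅ G η = 0 := by
  have h1 : Wc L ∅ = 0 := by
    ext x
    unfold Wc
    rw [W_empty]
    simp
  have h2 : (𝓕 (Wc L ∅) : E 2 → ℂ) = 0 := by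
    rw [h1]
    ext ξ
    rw [Real.fourier_eq]
    simp
  unfold pc
  rw [h2, zero_convolution]
  rfl

/-- the data of the plate `i` live in a strip -/
theorem strip_i {p L ρ : ℝ} (hL : 1 ≤ L) (hp : 1 ≤ p) {γ : ℕ → Plt} {G : E 2 → ℂ} {i : ℕ} {η : E 2}
    (h : Hi L (D0 p L ρ γ) G i η ≠ 0) : |nx (γ i).θ η - (γ i).v / 2| ≤ 4 * p / L := by
  have hL0 : 0 < L := by linarith
  unfold Hi at h
  obtain ⟨τ, hτ, h1⟩ := Finset.exists_ne_zero_of_sum_ne_zero h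
  have hR := rgs_D0 p L ρ γ (i + 1)
  have hi : i ∈ Finset.range (i + 1) := Finset.self_mem_range_succ i
  have hst : |fn (γ i).θ (fun k => (τ k : ℝ) / L) - (γ i).v| ≤ p / L := by
    by_contra hcon
    have h2 : D0 p L ρ γ i τ = ∅ := by
      rw [Set.eq_empty_iff_forall_notMem]
      intro z hz
      exact hcon ((D0_subset p L ρ γ i τ) hz).1
    rw [h2] at h1
    exact h1 (pc_empty _ _)
  have h3 : ∀ k, |2 * η k - τ k / L| ≤ 3 / L := fun k => pc_cell hL0 (hR.meas i hi τ) (hR.bdd i hi τ) h1 k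
  have h4 : |fn (γ i).θ (fun k => 2 * η k - τ k / L)| ≤ 2 * (3 / L) := abs_fn_le _ _ _ h3
  have h5 : fn (γ i).θ (fun k => 2 * η k - τ k / L) = 2 * nx (γ i).θ η - fn (γ i).θ (fun k => (τ k : ℝ) / L) := by
    rw [nx_eq]; unfold fn; ring
  rw [h5] at h4
  have h6 : |2 * nx (γ i).θ η - (γ i).v| ≤ 2 * (3 / L) + p / L := by
    calc |2 * nx (γ i).θ η - (γ i).v| ≤ |2 * nx (γ i).θ η - fn (γ i).θ (fun k => (τ k : ℝ) / L)| +
          |fn (γ i).θ (fun k => (τ k : ℝ) / L) - (γ i).v| := abs_sub_le _ _ _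
      _ ≤ _ := add_le_add h4 hst
  have h7 : nx (γ i).θ η - (γ i).v / 2 = (2 * nx (γ i).θ η - (γ i).v) / 2 := by ring
  rw [h7, abs_div, abs_of_pos (by norm_num : (0:ℝ) < 2)]
  have h8 : (2 * (3 / L) + p / L) / 2 ≤ 4 * p / L := by
    have : (2 * (3 / L) + p / L) / 2 = (6 + p) / 2 / L := by field_simp; ring
    rw [this]
    refine div_le_div_of_nonneg_right ?_ hL0.le
    linarith
  linarith

/-! ## the normal vectors over the velocity -/

/-- unit normal -/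
noncomputable def nv (θ : ℝ) : E 2 := !₂[-Real.sin θ, Real.cos θ]

theorem inner_nv (θ : ℝ) (x : E 2) : inner ℝ (nv θ) x = nx θ x := by
  rw [nx_eq, PiLp.inner_apply, Fin.sum_univ_two]
  simp [nv]
  ring

noncomputable def mv (γ : Plt) : E 2 := γ.v⁻¹ • nv γ.θ

theorem inner_mv {γ : Plt} (hv : γ.v ≠ 0) (x : E 2) : γ.v * inner ℝ (mv γ) x = nx γ.θ x := by
  unfold mv
  rw [real_inner_smul_left, inner_nv]
  field_simp

/-- polar form of a plane vector -/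
theorem exists_polar (d : E 2) : ∃ φ : ℝ, ∀ x : E 2, inner ℝ d x = ‖d‖ * nx φ x := by
  by_cases hd : d = 0
  · exact ⟨0, fun x => by rw [hd]; simp⟩
  have hn : 0 < ‖d‖ := norm_pos_iff.2 hd
  set z : ℂ := ⟨d 1, -d 0⟩ with hz
  have hzn : ‖z‖ = ‖d‖ := by
    have h1 : ‖z‖ ^ 2 = ‖d‖ ^ 2 := by
      rw [norm_sq_E, ← Complex.normSq_eq_norm_sq, Complex.normSq_apply]
      simp only [hz]
      ring
    exact (pow_left_inj₀ (norm_nonneg _) (norm_nonneg _) (by norm_num)).1 h1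
  have hz0 : z ≠ 0 := by
    intro h0
    rw [h0, norm_zero] at hzn
    linarith
  refine ⟨z.arg, fun x => ?_⟩
  rw [nx_eq, Complex.sin_arg, Complex.cos_arg hz0, hzn, PiLp.inner_apply, Fin.sum_univ_two]
  simp only [hz]
  simp
  field_simp

/-- near a plate -/
def near (p L : ℝ) (γ : Plt) (x : E 2) (t : ℝ) : Prop := |nx γ.θ x - γ.b - γ.v * t| ≤ 5 * (p * L)

/-- two plates -/
theorem two_plates {p L κ r : ℝ} (hL : 0 < L) (hp : 0 < p) (hκ : 0 < κ) (hr : 0 < r) {γ γ' : Plt} (h1 : κ ≤ γ.v) (h2 : κ ≤ γ'.v)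
    (hd : r < ‖mv γ - mv γ'‖) : ∃ φ β : ℝ, ∀ (x : E 2) (t : ℝ), near p L γ x t → near p L γ' x t →
      |nx φ x - β| ≤ 10 * (p * L) / (κ * r) := by
  have hv : 0 < γ.v := by linarith
  have hv' : 0 < γ'.v := by linarith
  have hn : 0 < ‖mv γ - mv γ'‖ := by linarith
  obtain ⟨φ, hφ⟩ := exists_polar (mv γ - mv γ')
  refine ⟨φ, (γ.b / γ.v - γ'.b / γ'.v) / ‖mv γ - mv γ'‖, fun x t hx hx' => ?_⟩
  unfold near at hx hx'
  have e1 : |inner ℝ (mv γ) x - γ.b / γ.v - t| ≤ 5 * (p * L) / κ := by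
    have h3 : inner ℝ (mv γ) x - γ.b / γ.v - t = (nx γ.θ x - γ.b - γ.v * t) / γ.v := by
      rw [← inner_mv hv.ne']; field_simp
    rw [h3, abs_div, abs_of_pos hv]
    exact div_le_div₀ (by positivity) hx hκ h1
  have e2 : |inner ℝ (mv γ') x - γ'.b / γ'.v - t| ≤ 5 * (p * L) / κ := by
    have h3 : inner ℝ (mv γ') x - γ'.b / γ'.v - t = (nx γ'.θ x - γ'.b - γ'.v * t) / γ'.v := by
      rw [← inner_mv hv'.ne']; field_simp
    rw [h3, abs_div, abs_of_pos hv']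
    exact div_le_div₀ (by positivity) hx' hκ h2
  have e3 : nx φ x - (γ.b / γ.v - γ'.b / γ'.v) / ‖mv γ - mv γ'‖ =
      ((inner ℝ (mv γ) x - γ.b / γ.v - t) - (inner ℝ (mv γ') x - γ'.b / γ'.v - t)) / ‖mv γ - mv γ'‖ := by
    have h4 := hφ x
    rw [inner_sub_left] at h4
    have h5 : nx φ x = (inner ℝ (mv γ) x - inner ℝ (mv γ') x) / ‖mv γ - mv γ'‖ := by rw [h4]; field_simp
    rw [h5, ← sub_div]
    congr 1
    ring
  rw [e3, abs_div, abs_of_pos hn]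
  have e4 := abs_sub (inner ℝ (mv γ) x - γ.b / γ.v - t) (inner ℝ (mv γ') x - γ'.b / γ'.v - t)
  calc _ ≤ (10 * (p * L) / κ) / r := by
        refine div_le_div₀ (by positivity) ?_ hr hd.le
        calc _ ≤ _ := e4
          _ ≤ 5 * (p * L) / κ + 5 * (p * L) / κ := add_le_add e1 e2
          _ = 10 * (p * L) / κ := by ring
    _ = 10 * (p * L) / (κ * r) := by rw [div_div]

/-- the strip of a cluster -/
theorem strip_cl {p L ρ κ r : ℝ} (hL : 1 ≤ L) (hp : 1 ≤ p) (hκ : 0 < κ) (hr : 0 ≤ r) {γ : ℕ → Plt} {G : E 2 → ℂ} {i i0 : ℕ} {η : E 2}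
    (h : Hi L (D0 p L ρ γ) G i η ≠ 0) (hη : ‖η‖ ≤ 2) (h1 : κ ≤ (γ i).v) (h2 : κ ≤ (γ i0).v) (h3 : (γ i0).v ≤ 10)
    (hd : ‖mv (γ i) - mv (γ i0)‖ ≤ r) : |nx (γ i0).θ η - (γ i0).v / 2| ≤ 10 * (4 * p / (L * κ) + 2 * r) := by
  have hv : 0 < (γ i).v := by linarith
  have hv0 : 0 < (γ i0).v := by linarith
  have h4 := strip_i hL hp h
  have e1 : |inner ℝ (mv (γ i)) η - 1 / 2| ≤ 4 * p / (L * κ) := by
    have h5 : inner ℝ (mv (γ i)) η - 1 / 2 = (nx (γ i).θ η - (γ i).v / 2) / (γ i).v := by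
      rw [← inner_mv hv.ne']; field_simp
    rw [h5, abs_div, abs_of_pos hv]
    calc |nx (γ i).θ η - (γ i).v / 2| / (γ i).v ≤ (4 * p / L) / κ := div_le_div₀ (by positivity) h4 hκ h1
      _ = 4 * p / (L * κ) := by rw [div_div]
  have e2 : |inner ℝ (mv (γ i) - mv (γ i0)) η| ≤ 2 * r := by
    calc |inner ℝ (mv (γ i) - mv (γ i0)) η| ≤ ‖mv (γ i) - mv (γ i0)‖ * ‖η‖ := abs_real_inner_le_norm _ _
      _ ≤ r * 2 := mul_le_mul hd hη (norm_nonneg _) hr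
      _ = 2 * r := by ring
  rw [inner_sub_left] at e2
  have e3 : nx (γ i0).θ η - (γ i0).v / 2 = (γ i0).v * ((inner ℝ (mv (γ i)) η - 1 / 2) - (inner ℝ (mv (γ i)) η - inner ℝ (mv (γ i0)) η)) := by
    rw [← inner_mv hv0.ne']; ring
  rw [e3, abs_mul, abs_of_pos hv0]
  refine mul_le_mul h3 ?_ (abs_nonneg _) (by norm_num)
  exact (abs_sub _ _).trans (add_le_add e1 e2)

end Vale.Agent.P076.ASM
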