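import Vale.Agent.P076.ASM.Fin1

/-! # P076 / ASM : exceptional points, trichotomy, numerical lemmas -/

open MeasureTheory Complex FourierTransform Convolution Set Vale.Agent.P122.C2

set_option linter.all false

namespace Vale.Agent.P076.ASM

open Classical in
/-- non vertical plates -/
noncomputable def VV (κ : ℝ) (N : ℕ) (γ : ℕ → Plt) : Finset ℕ := (Finset.range N).filter fun i => κ ≤ (γ i).v

/-- exceptional points -/
def bad (p L κ : ℝ) (N : ℕ) (γ : ℕ → Plt) (cl : ℕ → ℕ) (x : E 2) (t : ℝ) : Prop :=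
  (∃ i < N, near p L (γ i) x t ∧ (γ i).v < κ) ∨
    ∃ i ∈ VV κ N γ, ∃ j ∈ VV κ N γ, near p L (γ i) x t ∧ near p L (γ j) x t ∧ cl i ≠ cl j

open Classical in
theorem bad_card {p L κ r R : ℝ} (hL : 0 < L) (hp : 0 < p) (hκ : 0 < κ) (hr : 0 < r) (hR : 0 ≤ R) {N : ℕ} {γ : ℕ → Plt} {cl : ℕ → ℕ}
    (hcl : ∀ i ∈ VV κ N γ, ∀ j ∈ VV κ N γ, cl i ≠ cl j → r < ‖mv (γ i) - mv (γ j)‖) (hv : ∀ i < N, 0 ≤ (γ i).v)
    (A : Finset (Fin 2 → ℤ)) (t : (Fin 2 → ℤ) → ℝ) (h1 : ∀ k ∈ A, ‖lp k‖ ≤ R) (ht0 : ∀ k ∈ A, 0 ≤ t k) (htR : ∀ k ∈ A, t k ≤ R) :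
    ((A.filter fun k => bad p L κ N γ cl (lp k) (t k)).card : ℝ) ≤
      N * ((2 * R + 1) * (4 * (5 * (p * L) + κ * R) + 1)) + N ^ 2 * ((2 * R + 1) * (4 * (10 * (p * L) / (κ * r)) + 1)) := by
  set A1 : ℕ → Finset (Fin 2 → ℤ) := fun i => A.filter fun k => near p L (γ i) (lp k) (t k) ∧ (γ i).v < κ with hA1
  set A2 : ℕ → ℕ → Finset (Fin 2 → ℤ) := fun i j => A.filter fun k => i ∈ VV κ N γ ∧ j ∈ VV κ N γ ∧
    near p L (γ i) (lp k) (t k) ∧ near p L (γ j) (lp k) (t k) ∧ cl i ≠ cl j with hA2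
  have hsub : (A.filter fun k => bad p L κ N γ cl (lp k) (t k)) ⊆
      ((Finset.range N).biUnion A1) ∪ ((Finset.range N).biUnion fun i => (Finset.range N).biUnion fun j => A2 i j) := by
    intro k hk
    rw [Finset.mem_filter] at hk
    rw [Finset.mem_union]
    rcases hk.2 with ⟨i, hi, h2, h3⟩ | ⟨i, hi, j, hj, h2, h3, h4⟩
    · left
      rw [Finset.mem_biUnion]
      exact ⟨i, Finset.mem_range.2 hi, Finset.mem_filter.2 ⟨hk.1, h2, h3⟩⟩
    · right
      rw [Finset.mem_biUnion]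
      refine ⟨i, (Finset.mem_filter.1 hi).1, ?_⟩
      rw [Finset.mem_biUnion]
      exact ⟨j, (Finset.mem_filter.1 hj).1, Finset.mem_filter.2 ⟨hk.1, hi, hj, h2, h3, h4⟩⟩
  have hc1 : ∀ i ∈ Finset.range N, ((A1 i).card : ℝ) ≤ (2 * R + 1) * (4 * (5 * (p * L) + κ * R) + 1) := by
    intro i hi
    refine strip_count (A1 i) hR (by positivity) (γ i).θ (γ i).b (fun k hk => h1 k (Finset.mem_filter.1 hk).1) fun k hk => ?_
    have hk' := Finset.mem_filter.1 hk
    have h2 : |nx (γ i).θ (lp k) - (γ i).b - (γ i).v * t k| ≤ 5 * (p * L) := hk'.2.1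
    have h3 : |(γ i).v * t k| ≤ κ * R := by
      rw [abs_mul, abs_of_nonneg (hv i (Finset.mem_range.1 hi)), abs_of_nonneg (ht0 k hk'.1)]
      exact mul_le_mul hk'.2.2.le (htR k hk'.1) (ht0 k hk'.1) hκ.le
    calc |nx (γ i).θ (lp k) - (γ i).b| = |(nx (γ i).θ (lp k) - (γ i).b - (γ i).v * t k) + (γ i).v * t k| := by congr 1; ring
      _ ≤ _ := (abs_add_le _ _).trans (add_le_add h2 h3)
  have hc2 : ∀ i ∈ Finset.range N, ∀ j ∈ Finset.range N, ((A2 i j).card : ℝ) ≤ (2 * R + 1) * (4 * (10 * (p * L) / (κ * r)) + 1) := by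
    intro i _ j _
    rcases (A2 i j).eq_empty_or_nonempty with he | ⟨k0, hk0⟩
    · rw [he]
      simp
      positivity
    have hk0' := (Finset.mem_filter.1 hk0).2
    have hd := hcl i hk0'.1 j hk0'.2.1 hk0'.2.2.2.2
    have hvi := (Finset.mem_filter.1 hk0'.1).2
    have hvj := (Finset.mem_filter.1 hk0'.2.1).2
    obtain ⟨φ, β, hφ⟩ := two_plates hL hp hκ hr hvi hvj hd
    refine strip_count (A2 i j) hR (by positivity) φ β (fun k hk => h1 k (Finset.mem_filter.1 hk).1) fun k hk => ?_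
    have hk' := (Finset.mem_filter.1 hk).2
    exact hφ _ _ hk'.2.2.1 hk'.2.2.2.1
  have h5 := Finset.card_le_card hsub
  have h6 := Finset.card_union_le ((Finset.range N).biUnion A1) ((Finset.range N).biUnion fun i => (Finset.range N).biUnion fun j => A2 i j)
  have h7 : ((((Finset.range N).biUnion A1).card : ℕ) : ℝ) ≤ N * ((2 * R + 1) * (4 * (5 * (p * L) + κ * R) + 1)) := by
    calc ((((Finset.range N).biUnion A1).card : ℕ) : ℝ) ≤ ((∑ i ∈ Finset.range N, (A1 i).card : ℕ) : ℝ) := by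
          exact_mod_cast Finset.card_biUnion_le
      _ = ∑ i ∈ Finset.range N, ((A1 i).card : ℝ) := by push_cast; rfl
      _ ≤ ∑ i ∈ Finset.range N, ((2 * R + 1) * (4 * (5 * (p * L) + κ * R) + 1)) := Finset.sum_le_sum hc1
      _ = _ := by rw [Finset.sum_const, Finset.card_range, nsmul_eq_mul]
  have h8 : ((((Finset.range N).biUnion fun i => (Finset.range N).biUnion fun j => A2 i j).card : ℕ) : ℝ) ≤
      N ^ 2 * ((2 * R + 1) * (4 * (10 * (p * L) / (κ * r)) + 1)) := by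
    calc ((((Finset.range N).biUnion fun i => (Finset.range N).biUnion fun j => A2 i j).card : ℕ) : ℝ)
        ≤ ((∑ i ∈ Finset.range N, ((Finset.range N).biUnion fun j => A2 i j).card : ℕ) : ℝ) := by
          exact_mod_cast Finset.card_biUnion_le
      _ ≤ ((∑ i ∈ Finset.range N, ∑ j ∈ Finset.range N, (A2 i j).card : ℕ) : ℝ) := by
          exact_mod_cast Finset.sum_le_sum fun i _ => Finset.card_biUnion_le
      _ = ∑ i ∈ Finset.range N, ∑ j ∈ Finset.range N, ((A2 i j).card : ℝ) := by push_cast; rfl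
      _ ≤ ∑ i ∈ Finset.range N, ∑ j ∈ Finset.range N, ((2 * R + 1) * (4 * (10 * (p * L) / (κ * r)) + 1)) :=
          Finset.sum_le_sum fun i hi => Finset.sum_le_sum fun j hj => hc2 i hi j hj
      _ = _ := by
          rw [Finset.sum_const, Finset.sum_const, Finset.card_range, nsmul_eq_mul, nsmul_eq_mul]
          ring
  calc ((A.filter fun k => bad p L κ N γ cl (lp k) (t k)).card : ℝ)
      ≤ ((((Finset.range N).biUnion A1).card + ((Finset.range N).biUnion fun i => (Finset.range N).biUnion fun j => A2 i j).card : ℕ) : ℝ) := by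
        exact_mod_cast h5.trans h6
    _ ≤ _ := by push_cast; exact add_le_add h7 h8

open Classical in
/-- the trichotomy at a point -/
theorem tri {p L κ : ℝ} {N : ℕ} {γ : ℕ → Plt} {cl : ℕ → ℕ} {x : E 2} {t : ℝ} (u : ℕ → ℂ) (v : ℂ) {α e : ℝ} (hα : 0 < α)
    (hcl : ∀ i ∈ VV κ N γ, cl i ∈ VV κ N γ)
    (hbig : α ≤ ‖v + ∑ i ∈ Finset.range N, u i‖) (hfar : ∀ i < N, ¬ near p L (γ i) x t → ‖u i‖ ≤ e) (he : 0 ≤ e) (hNe : N * e ≤ α / 4) :
    α / 4 ≤ ‖v‖ ∨ (bad p L κ N γ cl x t ∧ ∃ i ∈ Finset.range N, α / (2 * N) ≤ ‖u i‖) ∨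
      (∃ j ∈ (VV κ N γ).image cl, α / 2 ≤ ‖∑ i ∈ (VV κ N γ).filter (fun i => cl i = j), u i‖) := by
  by_cases h1 : α / 4 ≤ ‖v‖
  · exact Or.inl h1
  right
  push Not at h1
  have h2 : 3 * α / 4 < ‖∑ i ∈ Finset.range N, u i‖ := by
    have := norm_add_le v (∑ i ∈ Finset.range N, u i)
    linarith
  have hN0 : 0 < (N : ℝ) := by
    rcases Nat.eq_zero_or_pos N with h0 | h0
    · subst h0
      simp at h2
      linarith
    · exact_mod_cast h0
  by_cases hb : bad p L κ N γ cl x t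
  · left
    refine ⟨hb, ?_⟩
    by_contra hcon
    push Not at hcon
    have h3 : ‖∑ i ∈ Finset.range N, u i‖ ≤ ∑ i ∈ Finset.range N, ‖u i‖ := norm_sum_le _ _
    have h4 : ∑ i ∈ Finset.range N, ‖u i‖ ≤ ∑ i ∈ Finset.range N, α / (2 * N) := Finset.sum_le_sum fun i hi => (hcon i hi).le
    rw [Finset.sum_const, Finset.card_range, nsmul_eq_mul] at h4
    have h5 : (N : ℝ) * (α / (2 * N)) = α / 2 := by field_simp
    linarith
  · right
    -- a near plate exists
    have hex : ∃ i0 ∈ Finset.range N, near p L (γ i0) x t := by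
      by_contra hcon
      push Not at hcon
      have h3 : ‖∑ i ∈ Finset.range N, u i‖ ≤ ∑ i ∈ Finset.range N, ‖u i‖ := norm_sum_le _ _
      have h4 : ∑ i ∈ Finset.range N, ‖u i‖ ≤ ∑ i ∈ Finset.range N, e := Finset.sum_le_sum fun i hi =>
        hfar i (Finset.mem_range.1 hi) (hcon i hi)
      rw [Finset.sum_const, Finset.card_range, nsmul_eq_mul] at h4
      linarith
    obtain ⟨i0, hi0, hn0⟩ := hex
    have hV0 : i0 ∈ VV κ N γ := by
      unfold VV
      rw [Finset.mem_filter]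
      refine ⟨hi0, ?_⟩
      by_contra hcon
      push Not at hcon
      exact hb (Or.inl ⟨i0, Finset.mem_range.1 hi0, hn0, hcon⟩)
    refine ⟨cl i0, Finset.mem_image_of_mem cl hV0, ?_⟩
    set C := (VV κ N γ).filter (fun i => cl i = cl i0) with hC
    have hCs : C ⊆ Finset.range N := (Finset.filter_subset _ _).trans (Finset.filter_subset _ _)
    have hsplit : ∑ i ∈ Finset.range N, u i = ∑ i ∈ C, u i + ∑ i ∈ Finset.range N \ C, u i := by
      rw [add_comm, Finset.sum_sdiff hCs]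
    have hsm : ‖∑ i ∈ Finset.range N \ C, u i‖ ≤ α / 4 := by
      have h3 : ‖∑ i ∈ Finset.range N \ C, u i‖ ≤ ∑ i ∈ Finset.range N \ C, ‖u i‖ := norm_sum_le _ _
      have h4 : ∑ i ∈ Finset.range N \ C, ‖u i‖ ≤ ∑ i ∈ Finset.range N \ C, e := by
        refine Finset.sum_le_sum fun i hi => ?_
        rw [Finset.mem_sdiff] at hi
        refine hfar i (Finset.mem_range.1 hi.1) fun hn => hi.2 ?_
        have hVi : i ∈ VV κ N γ := by
          unfold VV
          rw [Finset.mem_filter]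
          refine ⟨hi.1, ?_⟩
          by_contra hcon
          push Not at hcon
          exact hb (Or.inl ⟨i, Finset.mem_range.1 hi.1, hn, hcon⟩)
        rw [hC, Finset.mem_filter]
        refine ⟨hVi, ?_⟩
        by_contra hcon
        exact hb (Or.inr ⟨i, hVi, i0, hV0, hn, hn0, hcon⟩)
      have h5 : ∑ i ∈ Finset.range N \ C, e ≤ N * e := by
        rw [Finset.sum_const, nsmul_eq_mul]
        refine mul_le_mul_of_nonneg_right ?_ he
        have := Finset.card_le_card (Finset.sdiff_subset (s := Finset.range N) (t := C))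
        rw [Finset.card_range] at this
        exact_mod_cast this
      linarith
    rw [hsplit] at h2
    have := norm_add_le (∑ i ∈ C, u i) (∑ i ∈ Finset.range N \ C, u i)
    linarith

/-! ## trivial bounds -/

theorem evo_triv : ∃ C : ℝ, 0 ≤ C ∧ ∀ (G : E 2 → ℂ) (x : E 2) (t : ℝ), Bd 1 G → ‖evo G x t 0‖ ^ 2 ≤ C * ∫ η, ‖G η‖ ^ 2 := by
  set V := (volume (Metric.closedBall (0 : E 2) 1)).toReal with hV
  have hVn : 0 ≤ V := ENNReal.toReal_nonneg
  refine ⟨V + 1, by positivity, fun G x t hG => ?_⟩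
  set M0 := ∫ η, ‖G η‖ ^ 2 with hM0
  have hM0n : 0 ≤ M0 := integral_nonneg fun _ => by positivity
  have h1 : ‖evo G x t 0‖ ≤ ∫ η, ‖G η‖ := norm_evo_le hG.integrable x t le_rfl
  have hkey : ∀ s : ℝ, 0 < s → ∫ η, ‖G η‖ ≤ s * V / 2 + M0 / (2 * s) := by
    intro s hs
    have hi1 : Integrable fun η : E 2 => (Metric.closedBall (0 : E 2) 1).indicator (fun _ => s / 2) η := by
      refine (integrable_indicator_iff Metric.isClosed_closedBall.measurableSet).2 (integrableOn_const ?_)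
      exact measure_closedBall_lt_top.ne
    have hi2 : Integrable fun η : E 2 => ‖G η‖ ^ 2 / (2 * s) := hG.int_sq'.div_const _
    have h2 : ∫ η, ‖G η‖ ≤ ∫ η, ((Metric.closedBall (0 : E 2) 1).indicator (fun _ => s / 2) η + ‖G η‖ ^ 2 / (2 * s)) := by
      refine integral_mono hG.integrable.norm (hi1.add hi2) fun η => ?_
      by_cases h0 : G η = 0
      · simp only [h0, norm_zero]
        have : 0 ≤ (Metric.closedBall (0 : E 2) 1).indicator (fun _ => s / 2) η := indicator_nonneg (fun _ _ => by positivity) _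
        have h3 : (0:ℝ) ^ 2 / (2 * s) = 0 := by simp
        linarith
      · have hmem : η ∈ Metric.closedBall (0 : E 2) 1 := by simpa using hG.supp η h0
        simp only
        rw [indicator_of_mem hmem]
        have h3 : ‖G η‖ ≤ s / 2 + ‖G η‖ ^ 2 / (2 * s) := by
          have h4 : s / 2 + ‖G η‖ ^ 2 / (2 * s) - ‖G η‖ = (s - ‖G η‖) ^ 2 / (2 * s) := by field_simp; ring
          have h5 : 0 ≤ (s - ‖G η‖) ^ 2 / (2 * s) := by positivity
          linarith
        exact h3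
    rw [integral_add hi1 hi2, integral_indicator Metric.isClosed_closedBall.measurableSet, setIntegral_const, integral_div] at h2
    have h3 : (volume.real (Metric.closedBall (0 : E 2) 1)) • (s / 2) = s * V / 2 := by
      rw [smul_eq_mul, hV]
      unfold Measure.real
      ring
    rw [h3] at h2
    exact h2
  rcases hM0n.eq_or_lt with h0 | hpos
  · -- M0 = 0
    have h2 : ∫ η, ‖G η‖ ≤ 0 := by
      refine le_of_forall_pos_le_add fun ε hε => ?_
      have h3 := hkey (ε / (V + 1)) (by positivity)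
      rw [← h0] at h3
      have h4 : ε / (V + 1) * V / 2 + 0 / (2 * (ε / (V + 1))) ≤ 0 + ε := by
        rw [zero_div, add_zero, zero_add]
        have h5 : ε / (V + 1) * V ≤ ε := by
          rw [div_mul_eq_mul_div, div_le_iff₀ (by positivity)]
          nlinarith
        linarith
      linarith
    have h3 : ‖evo G x t 0‖ = 0 := le_antisymm (h1.trans h2) (norm_nonneg _)
    rw [h3, ← h0]
    simp
  · set s := Real.sqrt (M0 / (V + 1)) with hs
    have hs0 : 0 < s := Real.sqrt_pos.2 (by positivity)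
    have hs2 : s ^ 2 = M0 / (V + 1) := Real.sq_sqrt (by positivity)
    have h2 := hkey s hs0
    have h3 : s * V / 2 + M0 / (2 * s) ≤ s * (V + 1) := by
      have h4 : M0 / (2 * s) = s * (V + 1) / 2 := by
        rw [div_eq_div_iff (by positivity) (by norm_num)]
        have : M0 = s ^ 2 * (V + 1) := by rw [hs2]; field_simp
        rw [this]; ring
      rw [h4]
      nlinarith
    calc ‖evo G x t 0‖ ^ 2 ≤ (s * (V + 1)) ^ 2 := pow_le_pow_left₀ (norm_nonneg _) (by linarith) 2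
      _ = s ^ 2 * (V + 1) ^ 2 := by ring
      _ = (V + 1) * M0 := by rw [hs2]; field_simp

theorem card_triv (A : Finset (Fin 2 → ℤ)) {R : ℝ} (hR : 1 ≤ R) (h1 : ∀ k ∈ A, ‖lp k‖ ≤ R) : (A.card : ℝ) ≤ 15 * R ^ 2 := by
  have h := strip_count A (by linarith : 0 ≤ R) (by linarith : 0 ≤ R) 0 0 h1 fun k hk => by
    rw [sub_zero]; exact (abs_nx_le 0 _).trans (h1 k hk)
  calc (A.card : ℝ) ≤ (2 * R + 1) * (4 * R + 1) := h
    _ ≤ (3 * R) * (5 * R) := mul_le_mul (by linarith) (by linarith) (by linarith) (by linarith)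
    _ = 15 * R ^ 2 := by ring

/-- choice of the dyadic `L` -/
theorem exists_L (K : ℕ) (hK : 1 ≤ K) {R : ℝ} (hR : 1 ≤ R) : ∃ n : ℕ, R ≤ ((2:ℝ) ^ (K * n)) ^ 2 ∧ ((2:ℝ) ^ (K * n)) ^ 2 ≤ 4 ^ K * R := by
  classical
  have hex : ∃ n : ℕ, R ≤ ((2:ℝ) ^ (K * n)) ^ 2 := by
    obtain ⟨n, hn⟩ := pow_unbounded_of_one_lt R (by norm_num : (1:ℝ) < 2)
    refine ⟨n, hn.le.trans ?_⟩
    calc (2:ℝ) ^ n ≤ 2 ^ (K * n) := pow_le_pow_right₀ (by norm_num) (Nat.le_mul_of_pos_left n (by omega))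
      _ ≤ ((2:ℝ) ^ (K * n)) ^ 2 := by
          have : (1:ℝ) ≤ 2 ^ (K * n) := one_le_pow₀ (by norm_num)
          nlinarith
  refine ⟨Nat.find hex, Nat.find_spec hex, ?_⟩
  rcases Nat.eq_zero_or_pos (Nat.find hex) with h0 | h0
  · rw [h0]
    simp only [mul_zero, pow_zero, one_pow]
    have : (1:ℝ) ≤ 4 ^ K := one_le_pow₀ (by norm_num)
    nlinarith
  · obtain ⟨m, hm⟩ : ∃ m, Nat.find hex = m + 1 := ⟨Nat.find hex - 1, by omega⟩
    have h1 : ¬ R ≤ ((2:ℝ) ^ (K * m)) ^ 2 := Nat.find_min hex (by omega)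
    push Not at h1
    rw [hm]
    have h2 : ((2:ℝ) ^ (K * (m + 1))) ^ 2 = 4 ^ K * ((2:ℝ) ^ (K * m)) ^ 2 := by
      have h4 : (4:ℝ) ^ K = (2 ^ K) ^ 2 := by rw [← pow_mul, mul_comm, pow_mul]; norm_num
      rw [mul_add, mul_one, pow_add, h4]
      ring
    rw [h2]
    exact mul_le_mul_of_nonneg_left h1.le (by positivity)

end Vale.Agent.P076.ASM
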