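import Vale.Agent.P076.ASM.Parts

/-! # P076 / ASM : gluing, part 1 -/

open MeasureTheory Complex FourierTransform Convolution Set Vale.Agent.P122.C2

set_option linter.all false

namespace Vale.Agent.P076.ASM

open Classical in
noncomputable def FA (L ρ c : ℝ) (γ : ℕ → Plt) (N : ℕ) (G : E 2 → ℂ) (A : Finset (Fin 2 → ℤ)) (t : (Fin 2 → ℤ) → ℝ) (α : ℝ) :
    Finset (Fin 2 → ℤ) :=
  A.filter fun k => α / 4 ≤ ‖evo (fun η => ∑ τ ∈ TT L, Hr L (Finset.range N) (D0 (L ^ (2 * c)) L ρ γ) G τ η) (lp k) (t k) 0‖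

open Classical in
noncomputable def FB (L ρ c κ : ℝ) (γ : ℕ → Plt) (cl : ℕ → ℕ) (N : ℕ) (G : E 2 → ℂ) (A : Finset (Fin 2 → ℤ)) (t : (Fin 2 → ℤ) → ℝ)
    (α : ℝ) (i : ℕ) : Finset (Fin 2 → ℤ) :=
  A.filter fun k => bad (L ^ (2 * c)) L κ N γ cl (lp k) (t k) ∧
    α / (2 * N) ≤ ‖evo (Hi L (D0 (L ^ (2 * c)) L ρ γ) G i) (lp k) (t k) 0‖

open Classical in
noncomputable def FC (L ρ c κ : ℝ) (γ : ℕ → Plt) (cl : ℕ → ℕ) (N : ℕ) (G : E 2 → ℂ) (A : Finset (Fin 2 → ℤ)) (t : (Fin 2 → ℤ) → ℝ)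
    (α : ℝ) (j : ℕ) : Finset (Fin 2 → ℤ) :=
  A.filter fun k => α / 2 ≤ ‖∑ i ∈ (VV κ N γ).filter (fun i => cl i = j),
    evo (Hi L (D0 (L ^ (2 * c)) L ρ γ) G i) (lp k) (t k) 0‖

theorem choose_N {L c M0 lam : ℝ} {N : ℕ} (hL : 1 ≤ L) (hM0 : 0 < M0) (hlam : lam = 1 / 2 * L ^ (-c) * M0) (h : N * lam ≤ M0) :
    (N : ℝ) ≤ 2 * L ^ c := by
  have hL0 : 0 < L := by linarith
  have h1 : (N : ℝ) * (1 / 2 * L ^ (-c)) ≤ 1 := by
    have h2 : (N : ℝ) * (1 / 2 * L ^ (-c)) * M0 ≤ 1 * M0 := by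
      calc (N : ℝ) * (1 / 2 * L ^ (-c)) * M0 = N * lam := by rw [hlam]; ring
        _ ≤ M0 := h
        _ = 1 * M0 := by ring
    exact le_of_mul_le_mul_right h2 hM0
  have h3 : L ^ (-c) * L ^ c = 1 := by rw [← Real.rpow_add hL0]; simp
  have h4 : 0 < L ^ c := Real.rpow_pos_of_pos hL0 _
  calc (N : ℝ) = (N * (1 / 2 * L ^ (-c))) * (2 * L ^ c) := by
        have : (N : ℝ) * (1 / 2 * L ^ (-c)) * (2 * L ^ c) = N * (L ^ (-c) * L ^ c) := by ring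
        rw [this, h3, mul_one]
    _ ≤ 1 * (2 * L ^ c) := mul_le_mul_of_nonneg_right h1 (by positivity)
    _ = 2 * L ^ c := one_mul _

theorem cover {L ρ c κ R Cl α : ℝ} {γ : ℕ → Plt} {cl : ℕ → ℕ} {N : ℕ} {G : E 2 → ℂ} {A : Finset (Fin 2 → ℤ)}
    {t : (Fin 2 → ℤ) → ℝ} (hL : 1 ≤ L) (hR : 1 ≤ R) (hn1 : R ≤ L ^ 2) (hc : 0 < c) (hc2 : 2 * c ≤ 1) (hN : (N : ℝ) ≤ 2 * L ^ c)
    (hCl : 0 ≤ Cl) (hRCl : (64 * Cl) ^ 2 ≤ R) (hα : 0 < α) (hG : Bd 1 G) (hGr : Gr R G A t α)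
    (hαM : R ^ (-(10:ℝ)) * ∫ η, ‖G η‖ ^ 2 ≤ α ^ 2) (hcl : ∀ i ∈ VV κ N γ, cl i ∈ VV κ N γ)
    (hloc : ∀ (i : ℕ) (x : E 2) (t : ℝ), i < N → |t| ≤ L ^ 2 →
      5 * (L ^ (2 * c) * L) < |nx (γ i).θ x - (γ i).b - (γ i).v * t| →
        ‖evo (Hi L (D0 (L ^ (2 * c)) L ρ γ) G i) x t 0‖ ^ 2 ≤ Cl * L ^ (-(22:ℝ)) * ∫ η, ‖G η‖ ^ 2) :
    A ⊆ FA L ρ c γ N G A t α ∪ ((Finset.range N).biUnion (FB L ρ c κ γ cl N G A t α) ∪
      ((VV κ N γ).image cl).biUnion (FC L ρ c κ γ cl N G A t α)) := by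
  classical
  have hL0 : 0 < L := by linarith
  have hRg : Rgs (Finset.range N) (D0 (L ^ (2 * c)) L ρ γ) := rgs_D0 _ L ρ γ N
  have hN0 : (0:ℝ) ≤ N := Nat.cast_nonneg N
  have hM0 : 0 ≤ ∫ η, ‖G η‖ ^ 2 := integral_nonneg fun _ => by positivity
  have h64 : 64 * Cl ≤ L := by
    have h1 : (64 * Cl) ^ 2 ≤ L ^ 2 := hRCl.trans hn1
    exact (abs_le_of_sq_le_sq' h1 hL0.le).2
  have hNe := num_loc (N := (N:ℝ)) hL hR hn1 hc2 hN0 hN hCl h64 hM0 hα.le hαM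
  intro k hk
  have h1 := tri (p := L ^ (2 * c)) (L := L) (κ := κ) (N := N) (γ := γ) (cl := cl) (x := lp k) (t := t k)
    (fun i => evo (Hi L (D0 (L ^ (2 * c)) L ρ γ) G i) (lp k) (t k) 0)
    (evo (fun η => ∑ τ ∈ TT L, Hr L (Finset.range N) (D0 (L ^ (2 * c)) L ρ γ) G τ η) (lp k) (t k) 0) hα
    hcl (by
      have h2 := hGr.big k hk
      rw [evo_all hL hRg hG] at h2
      exact h2) (e := Real.sqrt (Cl * L ^ (-(22:ℝ)) * ∫ η, ‖G η‖ ^ 2)) (by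
      intro i hi hnear
      unfold near at hnear
      push Not at hnear
      have h2 := hloc i (lp k) (t k) hi (by
        rw [abs_of_nonneg (hGr.t0 k hk)]; exact (hGr.tR k hk).trans hn1) hnear
      exact Real.le_sqrt_of_sq_le h2) (Real.sqrt_nonneg _) hNe
  rw [Finset.mem_union, Finset.mem_union]
  rcases h1 with h1 | ⟨hb, i, hi, h1⟩ | ⟨j, hj, h1⟩
  · exact Or.inl (Finset.mem_filter.2 ⟨hk, h1⟩)
  · exact Or.inr (Or.inl (Finset.mem_biUnion.2 ⟨i, hi, Finset.mem_filter.2 ⟨hk, hb, h1⟩⟩))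
  · exact Or.inr (Or.inr (Finset.mem_biUnion.2 ⟨j, hj, Finset.mem_filter.2 ⟨hk, h1⟩⟩))

theorem card_cover {A B : Finset (Fin 2 → ℤ)} {S J : Finset ℕ} {F H : ℕ → Finset (Fin 2 → ℤ)}
    (h : A ⊆ B ∪ (S.biUnion F ∪ J.biUnion H)) :
    (A.card : ℝ) ≤ B.card + (∑ i ∈ S, ((F i).card : ℝ) + ∑ j ∈ J, ((H j).card : ℝ)) := by
  have h1 := Finset.card_le_card h
  have h2 := Finset.card_union_le B (S.biUnion F ∪ J.biUnion H)
  have h3 := Finset.card_union_le (S.biUnion F) (J.biUnion H)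
  have h4 := Finset.card_biUnion_le (s := S) (t := F)
  have h5 := Finset.card_biUnion_le (s := J) (t := H)
  have h6 : A.card ≤ B.card + (∑ i ∈ S, (F i).card + ∑ j ∈ J, (H j).card) := by omega
  have h7 : ((A.card : ℕ) : ℝ) ≤ ((B.card + (∑ i ∈ S, (F i).card + ∑ j ∈ J, (H j).card) : ℕ) : ℝ) := Nat.cast_le.2 h6
  rw [Nat.cast_add, Nat.cast_add, Nat.cast_sum, Nat.cast_sum] at h7
  exact h7

/-- the clusters -/
theorem part2 {cT CT δT : ℝ} (hCT : 0 ≤ CT) (TS : TSb cT CT δT) {c c' δ' δ R X α L ρ : ℝ} {K N : ℕ}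
    (hx : Ctx L c c' δ' N R K) (hcT2 : c' ≤ cT / 2) (hR80 : 80 ≤ R ^ (cT / 2)) (hδ0 : 0 < δ) (hδ1 : δ ≤ δT) (hα : 0 ≤ α)
    {G : E 2 → ℂ} (hG : Bd 1 G) {A : Finset (Fin 2 → ℤ)} {t : (Fin 2 → ℤ) → ℝ} (hGr : Gr R G A t α) (ha : 0 < (A.card : ℝ))
    (hX : X = ((A.card : ℝ) / R ^ 2) ^ δ) (hX0 : 0 < X) (ha15 : (A.card : ℝ) / R ^ 2 ≤ 15)
    {γ : ℕ → Plt} {cl : ℕ → ℕ} (hch : Chosen (L ^ (2 * c)) L ρ (L ^ (-(c' / 4))) (L ^ (c' - 1)) N γ cl) :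
    ∑ j ∈ (VV (L ^ (-(c' / 4))) N γ).image cl, α ^ 2 * ((FC L ρ c (L ^ (-(c' / 4))) γ cl N G A t α j).card : ℝ) ≤
      4 * 49 * (CT * 15 ^ δT) * (R ^ (2 / 3 : ℝ) * X * ∫ η, ‖G η‖ ^ 2) := by
  classical
  have hL := hx.hL
  have hR := hx.hR
  have hR0 : 0 < R := by linarith
  have hRg : Rgs (Finset.range N) (D0 (L ^ (2 * c)) L ρ γ) := rgs_D0 _ L ρ γ N
  have hVS : VV (L ^ (-(c' / 4))) N γ ⊆ Finset.range N := Finset.filter_subset _ _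
  have hmass := mass_cl hL hRg hG ((VV (L ^ (-(c' / 4))) N γ).image cl)
    (fun j => (VV (L ^ (-(c' / 4))) N γ).filter (fun i => cl i = j))
    (fun j _ => (Finset.filter_subset _ _).trans hVS) (by
      intro j _ j' _ hjj
      rw [Finset.disjoint_left]
      intro i hi hi'
      exact hjj ((Finset.mem_filter.1 hi).2.symm.trans (Finset.mem_filter.1 hi').2))
  have hF0 : 0 ≤ 4 * (CT * R ^ (2 / 3 : ℝ) * (15 ^ δT * X)) := by positivity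
  refine (Finset.sum_le_sum fun j hj => part2one hCT TS hx hcT2 hR80 hδ0 hδ1 hα hG hGr ha hX ha15 hch hj
    (Finset.filter_subset _ _) (fun k hk => (Finset.mem_filter.1 hk).2)).trans ?_
  rw [← Finset.mul_sum]
  refine (mul_le_mul_of_nonneg_left hmass hF0).trans (le_of_eq ?_)
  ring

/-- the exceptional points -/
theorem part3 {cT CT δT : ℝ} (hCT : 0 ≤ CT) (TS : TSb cT CT δT) {c c' δ' δ R X α L ρ : ℝ} {K N : ℕ}
    (hx : Ctx L c c' δ' N R K) (hcT2 : c' ≤ cT / 2) (hR80 : 80 ≤ R ^ (cT / 2)) (hδ'T : δ' ≤ δT) (hδ3 : δ ≤ c' * δ' / 64)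
    (hα : 0 ≤ α) {G : E 2 → ℂ} (hG : Bd 1 G) {A : Finset (Fin 2 → ℤ)} {t : (Fin 2 → ℤ) → ℝ} (hGr : Gr R G A t α) (hX0 : 0 < X)
    (hgain : R ^ (-(2 * δ)) ≤ X) {γ : ℕ → Plt} {cl : ℕ → ℕ}
    (hch : Chosen (L ^ (2 * c)) L ρ (L ^ (-(c' / 4))) (L ^ (c' - 1)) N γ cl) :
    ∑ i ∈ Finset.range N, α ^ 2 * ((FB L ρ c (L ^ (-(c' / 4))) γ cl N G A t α i).card : ℝ) ≤
      49 * (CT * (16 * (642 * 16 ^ K) ^ δT)) * (R ^ (2 / 3 : ℝ) * X * ∫ η, ‖G η‖ ^ 2) := by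
  classical
  have hL := hx.hL
  have hL0 : 0 < L := by linarith
  have hR := hx.hR
  have hR0 : 0 < R := by linarith
  have hRg : Rgs (Finset.range N) (D0 (L ^ (2 * c)) L ρ γ) := rgs_D0 _ L ρ γ N
  have hκ0 : 0 < L ^ (-(c' / 4)) := Real.rpow_pos_of_pos hL0 _
  have hr0 : 0 < L ^ (c' - 1) := Real.rpow_pos_of_pos hL0 _
  have hp0 : 0 < L ^ (2 * c) := Real.rpow_pos_of_pos hL0 _
  have hbadc : ((A.filter fun k => bad (L ^ (2 * c)) L (L ^ (-(c' / 4))) N γ cl (lp k) (t k)).card : ℝ) ≤ 642 * L ^ (4 - c' / 8) := by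
    refine (bad_card (r := L ^ (c' - 1)) (R := R) hL0 hp0 hκ0 hr0 hR0.le hch.sep hch.v0 A t hGr.pos hGr.t0 hGr.tR).trans ?_
    exact num_bad hL hR0.le hx.hn1 hx.c0 hx.cc hx.hc'1 hx.hN0 hx.hN
  have hmass := mass_cl hL hRg hG (Finset.range N) (fun i => {i}) (fun i hi => Finset.singleton_subset_iff.2 hi) (by
    intro i _ i' _ hii
    rw [Finset.disjoint_singleton]
    exact hii)
  simp only [Finset.sum_singleton] at hmass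
  have hone : ∀ i ∈ Finset.range N, α ^ 2 * ((FB L ρ c (L ^ (-(c' / 4))) γ cl N G A t α i).card : ℝ) ≤
      (CT * R ^ (2 / 3 : ℝ) * (16 * (642 * 16 ^ K) ^ δT * X)) * ∫ η, ‖Hi L (D0 (L ^ (2 * c)) L ρ γ) G i η‖ ^ 2 := by
    intro i hi
    have hsub : FB L ρ c (L ^ (-(c' / 4))) γ cl N G A t α i ⊆
        A.filter fun k => bad (L ^ (2 * c)) L (L ^ (-(c' / 4))) N γ cl (lp k) (t k) := by
      intro k hk
      have := Finset.mem_filter.1 hk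
      exact Finset.mem_filter.2 ⟨this.1, this.2.1⟩
    have hB : ((FB L ρ c (L ^ (-(c' / 4))) γ cl N G A t α i).card : ℝ) ≤ 642 * L ^ (4 - c' / 8) :=
      le_trans (Nat.cast_le.2 (Finset.card_le_card hsub)) hbadc
    exact part3one (B := 0) hCT TS hx hcT2 hR80 hδ'T hδ3 hα hG hGr hgain (Finset.mem_range.1 hi) (Finset.filter_subset _ _) hB
      (fun k hk => (Finset.mem_filter.1 hk).2.2)
  have hF0 : 0 ≤ CT * R ^ (2 / 3 : ℝ) * (16 * (642 * 16 ^ K) ^ δT * X) := by positivity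
  refine (Finset.sum_le_sum hone).trans ?_
  rw [← Finset.mul_sum]
  refine (mul_le_mul_of_nonneg_left hmass hF0).trans (le_of_eq ?_)
  ring

end Vale.Agent.P076.ASM
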