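import Vale.Agent.P076.ASM.Fin4

/-! # P076 / ASM : the assembly `StTS → StNSf → StS` (helper919) -/

open MeasureTheory Complex FourierTransform Convolution Set Vale.Agent.P122.C2

set_option linter.all false

namespace Vale.Agent.P076.ASM

theorem TSb.abs {cT CT δT : ℝ} (TS0 : TSb cT CT δT) : TSb cT |CT| δT := by
  intro R G A t α θ b hR hα hG hGr hst
  refine (TS0 R G A t α θ b hR hα hG hGr hst).trans ?_
  have hR0 : 0 < R := by linarith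
  have hI : 0 ≤ ∫ η, ‖G η‖ ^ 2 := integral_nonneg fun _ => by positivity
  refine mul_le_mul_of_nonneg_right (mul_le_mul_of_nonneg_right (mul_le_mul_of_nonneg_right (le_abs_self _) ?_) ?_) hI
  · positivity
  · positivity

/-- `F = R^{2/3} (a/R²)^δ M0` -/
theorem F_low {R δ a M0 : ℝ} (hR : 1 ≤ R) (hδ0 : 0 < δ) (hδ1 : δ ≤ 1) (ha : 1 ≤ a) (hM0 : 0 ≤ M0) :
    (R ^ 2)⁻¹ * M0 ≤ R ^ (2 / 3 : ℝ) * (a / R ^ 2) ^ δ * M0 := by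
  have hR0 : 0 < R := by linarith
  have hX0 : 0 < (a / R ^ 2) ^ δ := Real.rpow_pos_of_pos (by positivity) _
  have hgain : R ^ (-(2 * δ)) ≤ (a / R ^ 2) ^ δ := num_gain ha hR hδ0
  have hgain2 : R ^ (-(2:ℝ)) ≤ (a / R ^ 2) ^ δ := le_trans (rp_le hR (by linarith)) hgain
  have hR23 : 1 ≤ R ^ (2 / 3 : ℝ) := Real.one_le_rpow hR (by norm_num)
  have hRinv : R ^ (-(2:ℝ)) = (R ^ 2)⁻¹ := by
    rw [Real.rpow_neg hR0.le]; congr 1; rw [← Real.rpow_natCast]; norm_num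
  rw [← hRinv]
  refine mul_le_mul_of_nonneg_right ?_ hM0
  calc R ^ (-(2:ℝ)) ≤ (a / R ^ 2) ^ δ := hgain2
    _ = 1 * (a / R ^ 2) ^ δ := (one_mul _).symm
    _ ≤ R ^ (2 / 3 : ℝ) * (a / R ^ 2) ^ δ := mul_le_mul_of_nonneg_right hR23 hX0.le

theorem small_R {R R0 a M0 C0 α F : ℝ} (hR : 1 ≤ R) (hRR : R ≤ R0) (ha0 : 0 ≤ a) (ha : a ≤ 15 * R ^ 2) (hM0 : 0 ≤ M0) (hC0 : 0 ≤ C0)
    (hα2 : α ^ 2 ≤ C0 * M0) (hF : (R ^ 2)⁻¹ * M0 ≤ F) : α ^ 2 * a ≤ 15 * C0 * R0 ^ 4 * F := by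
  have hR0 : 0 < R := by linarith
  have hR00 : 0 < R0 := by linarith
  calc α ^ 2 * a ≤ (C0 * M0) * (15 * R ^ 2) := mul_le_mul hα2 ha ha0 (by positivity)
    _ = 15 * C0 * R ^ 4 * ((R ^ 2)⁻¹ * M0) := by field_simp
    _ ≤ 15 * C0 * R0 ^ 4 * ((R ^ 2)⁻¹ * M0) := by
        refine mul_le_mul_of_nonneg_right ?_ (by positivity)
        exact mul_le_mul_of_nonneg_left (pow_le_pow_left₀ hR0.le hRR 4) (by positivity)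
    _ ≤ _ := mul_le_mul_of_nonneg_left hF (by positivity)

theorem small_α {R a M0 α F : ℝ} (hR : 1 ≤ R) (ha0 : 0 ≤ a) (ha : a ≤ 15 * R ^ 2) (hM0 : 0 ≤ M0)
    (hα : α ^ 2 ≤ R ^ (-(10:ℝ)) * M0) (hF : (R ^ 2)⁻¹ * M0 ≤ F) : α ^ 2 * a ≤ 15 * F := by
  have hR0 : 0 < R := by linarith
  have h2 : R ^ (-(10:ℝ)) ≤ (R ^ 4)⁻¹ := by
    have h3 : R ^ (-(4:ℝ)) = (R ^ 4)⁻¹ := by
      rw [Real.rpow_neg hR0.le]; congr 1; rw [← Real.rpow_natCast]; norm_num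
    rw [← h3]
    exact rp_le hR (by norm_num)
  calc α ^ 2 * a ≤ (R ^ (-(10:ℝ)) * M0) * (15 * R ^ 2) := mul_le_mul hα ha ha0 (by positivity)
    _ ≤ ((R ^ 4)⁻¹ * M0) * (15 * R ^ 2) :=
        mul_le_mul_of_nonneg_right (mul_le_mul_of_nonneg_right h2 hM0) (by positivity)
    _ = 15 * ((R ^ 2)⁻¹ * M0) := by field_simp
    _ ≤ _ := mul_le_mul_of_nonneg_left hF (by norm_num)

theorem rpow_R0 {R cT : ℝ} (hcT : 0 < cT) (h1 : (80:ℝ) ^ (2 / cT) ≤ R) : 80 ≤ R ^ (cT / 2) := by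
  calc (80:ℝ) = ((80:ℝ) ^ (2 / cT)) ^ (cT / 2) := by
        rw [← Real.rpow_mul (by norm_num)]
        have : 2 / cT * (cT / 2) = 1 := by field_simp
        rw [this, Real.rpow_one]
    _ ≤ R ^ (cT / 2) := Real.rpow_le_rpow (by positivity) h1 (by positivity)

/-- all cases, for fixed constants -/
theorem all_cases {C1 C0 Cl cT δ R0 : ℝ} (hcT : 0 < cT) (hC1 : 0 ≤ C1) (hC0 : 0 ≤ C0) (hδ0 : 0 < δ) (hδ1 : δ ≤ 1)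
    (hR01 : (80:ℝ) ^ (2 / cT) ≤ R0) (hR02 : (64 * Cl) ^ 2 ≤ R0)
    (htriv : ∀ (G : E 2 → ℂ) (x : E 2) (t : ℝ), Bd 1 G → ‖evo G x t 0‖ ^ 2 ≤ C0 * ∫ η, ‖G η‖ ^ 2)
    (hmain : ∀ (R : ℝ) (G : E 2 → ℂ) (A : Finset (Fin 2 → ℤ)) (t : (Fin 2 → ℤ) → ℝ) (α : ℝ), 1 ≤ R → 0 < α → Bd 1 G → Gr R G A t α →
      1 ≤ A.card → 80 ≤ R ^ (cT / 2) → (64 * Cl) ^ 2 ≤ R → 0 < ∫ η, ‖G η‖ ^ 2 → R ^ (-(10:ℝ)) * ∫ η, ‖G η‖ ^ 2 ≤ α ^ 2 →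
        α ^ 2 * A.card ≤ C1 * (R ^ (2 / 3 : ℝ) * ((A.card : ℝ) / R ^ 2) ^ δ * ∫ η, ‖G η‖ ^ 2))
    (R : ℝ) (G : E 2 → ℂ) (A : Finset (Fin 2 → ℤ)) (t : (Fin 2 → ℤ) → ℝ) (α : ℝ) (hR : 1 ≤ R) (hα : 0 ≤ α) (hG : Bd 1 G)
    (hGr : Gr R G A t α) :
    α ^ 2 * A.card ≤ (C1 + 15 * C0 * R0 ^ 4 + 15) * R ^ (2 / 3 : ℝ) * ((A.card : ℝ) / R ^ 2) ^ δ * ∫ η, ‖G η‖ ^ 2 := by
  have hM0n : 0 ≤ ∫ η, ‖G η‖ ^ 2 := integral_nonneg fun _ => by positivity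
  obtain ⟨M0, hM0⟩ : ∃ M0 : ℝ, M0 = ∫ η, ‖G η‖ ^ 2 := ⟨_, rfl⟩
  have hRp : 0 < R := by linarith
  obtain ⟨a, ha⟩ : ∃ a : ℝ, a = (A.card : ℝ) := ⟨_, rfl⟩
  rcases A.eq_empty_or_nonempty with hAe | ⟨k0, hk0⟩
  · rw [hAe, Finset.card_empty, Nat.cast_zero, mul_zero, zero_div, Real.zero_rpow hδ0.ne', mul_zero, zero_mul]
  have hA1 : 1 ≤ A.card := Finset.card_pos.2 ⟨k0, hk0⟩
  have ha1 : 1 ≤ a := by rw [ha]; exact Nat.one_le_cast.2 hA1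
  have ha15 : a ≤ 15 * R ^ 2 := by rw [ha]; exact card_triv A hR hGr.pos
  obtain ⟨F, hF⟩ : ∃ F : ℝ, F = R ^ (2 / 3 : ℝ) * (a / R ^ 2) ^ δ * M0 := ⟨_, rfl⟩
  have hFlow : (R ^ 2)⁻¹ * M0 ≤ F := by rw [hF]; exact F_low hR hδ0 hδ1 ha1 (by rw [hM0]; exact hM0n)
  have hα2 : α ^ 2 ≤ C0 * M0 := by
    rw [hM0]
    exact (pow_le_pow_left₀ hα (hGr.big k0 hk0) 2).trans (htriv G (lp k0) (t k0) hG)
  have hgoal : (C1 + 15 * C0 * R0 ^ 4 + 15) * R ^ (2 / 3 : ℝ) * ((A.card : ℝ) / R ^ 2) ^ δ * ∫ η, ‖G η‖ ^ 2 =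
      C1 * F + 15 * C0 * R0 ^ 4 * F + 15 * F := by rw [hF, ha, hM0]; ring
  rw [hgoal, ← ha]
  have hM0' : 0 ≤ M0 := by rw [hM0]; exact hM0n
  have hF0 : 0 ≤ F := le_trans (by positivity) hFlow
  have t1 : 0 ≤ C1 * F := by positivity
  have t2 : 0 ≤ 15 * C0 * R0 ^ 4 * F := by positivity
  have t3 : 0 ≤ 15 * F := by positivity
  rcases lt_or_ge R R0 with hsmall | hlarge
  · have := small_R hR hsmall.le (by linarith : 0 ≤ a) ha15 hM0' hC0 hα2 hFlow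
    linarith
  rcases lt_or_ge (α ^ 2) (R ^ (-(10:ℝ)) * M0) with hαs | hαl
  · have := small_α hR (by linarith : 0 ≤ a) ha15 hM0' hαs.le hFlow
    linarith
  rcases hα.eq_or_lt with hα0 | hαpos
  · rw [← hα0]
    have : (0:ℝ) ^ 2 * a = 0 := by ring
    rw [this]
    linarith
  have hM0pos : 0 < M0 := by
    rcases hM0'.eq_or_lt with h0 | h0
    · exfalso
      rw [← h0, mul_zero] at hα2
      have : 0 < α ^ 2 := by positivity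
      linarith
    · exact h0
  have h := hmain R G A t α hR hαpos hG hGr hA1 (rpow_R0 hcT (hR01.trans hlarge)) (hR02.trans hlarge)
    (by rw [← hM0]; exact hM0pos) (by rw [← hM0]; exact hαl)
  rw [← ha, ← hM0, ← hF] at h
  linarith

/-- **the assembly** -/
theorem stASM : StASM := by
  intro hTS hNS
  obtain ⟨cT, CT0, δT, hcT, hδT, TS0⟩ := hTS
  have TS : TSb cT |CT0| δT := TSb.abs TS0
  have hCT : 0 ≤ |CT0| := abs_nonneg _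
  obtain ⟨c', hc'⟩ : ∃ c' : ℝ, c' = min cT 1 / 2 := ⟨_, rfl⟩
  obtain ⟨δ', hδ'⟩ : ∃ δ' : ℝ, δ' = min δT 1 := ⟨_, rfl⟩
  have hc'0 : 0 < c' := by rw [hc']; have := lt_min hcT one_pos; linarith
  have hc'T : c' ≤ cT / 2 := by rw [hc']; have := min_le_left cT 1; linarith
  have hc'1 : c' ≤ 1 / 2 := by rw [hc']; have := min_le_right cT 1; linarith
  have hδ'0 : 0 < δ' := by rw [hδ']; exact lt_min hδT one_pos
  have hδ'T : δ' ≤ δT := by rw [hδ']; exact min_le_left _ _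
  have hδ'1 : δ' ≤ 1 := by rw [hδ']; exact min_le_right _ _
  obtain ⟨c, hcd⟩ : ∃ c : ℝ, c = c' * δ' / 64 := ⟨_, rfl⟩
  have hc : 0 < c := by rw [hcd]; positivity
  obtain ⟨κN, hκN, K, hK, NS1⟩ := hNS c hc
  obtain ⟨C', hC', NS⟩ := NS1 3 (by norm_num)
  obtain ⟨Cp, hCp, hplm⟩ := plm_rest
  obtain ⟨Cl, hCl, hloc⟩ := loc c hc 22
  obtain ⟨C0, hC0, htriv⟩ := evo_triv
  obtain ⟨δ, hδ⟩ : ∃ δ : ℝ, δ = min (min δT (κN / 4)) (c' * δ' / 64) := ⟨_, rfl⟩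
  have hδ0 : 0 < δ := by rw [hδ]; exact lt_min (lt_min hδT (by positivity)) (by positivity)
  have hδ1 : δ ≤ δT := by rw [hδ]; exact (min_le_left _ _).trans (min_le_left _ _)
  have hδ2 : δ ≤ κN / 4 := by rw [hδ]; exact (min_le_left _ _).trans (min_le_right _ _)
  have hδ3 : δ ≤ c' * δ' / 64 := by rw [hδ]; exact min_le_right _ _
  have hδle1 : δ ≤ 1 := by
    refine hδ3.trans ?_
    nlinarith
  refine ⟨(16 * (C' * 4 ^ K * (1 + Cp)) + 4 * 49 * (|CT0| * 15 ^ δT) + 49 * (|CT0| * (16 * (642 * 16 ^ K) ^ δT))) +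
    15 * C0 * (max ((80:ℝ) ^ (2 / cT)) ((64 * Cl) ^ 2)) ^ 4 + 15, δ, hδ0, ?_⟩
  refine all_cases hcT (by positivity) hC0 hδ0 hδle1 (le_max_left _ _) (le_max_right _ _) htriv ?_
  intro R G A t α hR hα hG hGr hA hR80 hRCl hM0 hαM
  exact main_case hCT TS hc'0 hc'T hc'1 hδ'0 hδ'T hδ'1 hcd hK hκN hC' hCp hCl hδ0 hδ1 hδ2 hδ3 NS hplm hloc
    hR hα hG hGr hA hR80 hRCl hM0 hαM

end Vale.Agent.P076.ASM
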