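import Vale.Agent.P076.ASM.Defs

/-! # P076 / ASM : the mollifier -/

open MeasureTheory Complex FourierTransform SchwartzMap Convolution
open scoped ContDiff

set_option linter.all false

namespace Vale.Agent.P076.ASM

/-- the mollifier: rapidly decreasing, Fourier support in the unit ball -/
structure Mol (Φ : E 2 → ℝ) : Prop where
  cont : Continuous Φ
  nonneg : ∀ x, 0 ≤ Φ x
  int : Integrable Φ
  one : ∫ x, Φ x = 1
  dec : ∀ M : ℕ, ∃ C : ℝ, 0 ≤ C ∧ ∀ x, Φ x * (1 + ‖x‖) ^ M ≤ C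
  supp : ∀ η, (𝓕 (fun x => (Φ x : ℂ)) : E 2 → ℂ) η ≠ 0 → ‖η‖ ≤ 1

noncomputable def bmp : ContDiffBump (0 : E 2) := ⟨1 / 4, 1 / 2, by norm_num, by norm_num⟩

noncomputable def bmc (x : E 2) : ℂ := ((bmp x : ℝ) : ℂ)

theorem bmc_compact : HasCompactSupport bmc := bmp.hasCompactSupport.comp_left (g := fun r : ℝ => (r : ℂ)) (by simp)

theorem bmc_smooth : ContDiff ℝ ∞ bmc := Complex.ofRealCLM.contDiff.comp bmp.contDiff

noncomputable def bms : 𝓢(E 2, ℂ) := bmc_compact.toSchwartzMap bmc_smooth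

theorem bms_apply (x : E 2) : bms x = bmc x := rfl

theorem bmc_neg (x : E 2) : bmc (-x) = bmc x := by unfold bmc; rw [bmp.neg]

theorem bmc_ne {x : E 2} (h : bmc x ≠ 0) : ‖x‖ ≤ 1 / 2 := by
  have h1 : bmp x ≠ 0 := fun h' => h (by unfold bmc; rw [h']; simp)
  have h2 : x ∈ Function.support bmp := h1
  rw [bmp.support_eq] at h2
  have : ‖x‖ < 1 / 2 := by simpa [bmp] using h2
  exact this.le

noncomputable def ph1 : 𝓢(E 2, ℂ) := 𝓕 bms

theorem ph1_eq (x : E 2) : ph1 x = (𝓕 bmc : E 2 → ℂ) x := by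
  unfold ph1
  rw [fourier_coe]
  rfl

theorem integrable_bmc : Integrable bmc := bms.integrable

theorem ph1_conj (x : E 2) : (starRingEnd ℂ) (ph1 x) = ph1 x := by
  rw [ph1_eq]
  have h1 : (𝓕 bmc : E 2 → ℂ) x = (𝓕 bmc : E 2 → ℂ) (-x) := by
    rw [Real.fourier_eq, Real.fourier_eq]
    rw [← integral_neg_eq_self]
    congr 1
    ext v
    simp [bmc_neg]
  rw [h1]
  conv_rhs => rw [← h1]
  rw [Real.fourier_eq, Real.fourier_eq, ← integral_conj]
  congr 1
  ext v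
  simp only [Circle.smul_def, smul_eq_mul, map_mul, inner_neg_right, neg_neg]
  have h2 : (starRingEnd ℂ) (bmc v) = bmc v := by unfold bmc; exact Complex.conj_ofReal _
  rw [h2]
  congr 1
  rw [← Circle.coe_inv_eq_conj, ← AddChar.map_neg_eq_inv]

theorem ph1_sq (x : E 2) : ((‖ph1 x‖ ^ 2 : ℝ) : ℂ) = ph1 x * ph1 x := by
  have h := Complex.mul_conj (ph1 x)
  rw [ph1_conj] at h
  rw [h, Complex.normSq_eq_norm_sq]

noncomputable def mc : ℝ := ∫ x, ‖ph1 x‖ ^ 2

theorem integrable_ph1_sq : Integrable fun x => ‖ph1 x‖ ^ 2 := by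
  have := ph1.memLp 2 (μ := volume)
  exact this.integrable_norm_pow (by norm_num)

theorem bmp_zero : bmp 0 = 1 := bmp.one_of_mem_closedBall (by simp [bmp])

theorem mc_pos : 0 < mc := by
  unfold mc
  rw [integral_pos_iff_support_of_nonneg (fun x => by positivity) integrable_ph1_sq]
  have h1 : (Function.support fun x => ‖ph1 x‖ ^ 2) = {x | ph1 x ≠ 0} := by
    ext x; simp
  rw [h1]
  have ho : IsOpen {x | ph1 x ≠ 0} := isOpen_ne_fun ph1.continuous continuous_const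
  refine ho.measure_pos _ ?_
  by_contra hne
  rw [Set.not_nonempty_iff_eq_empty] at hne
  have h0 : ∀ x, ph1 x = 0 := fun x => by
    by_contra hx
    have : x ∈ ({x | ph1 x ≠ 0} : Set (E 2)) := hx
    rw [hne] at this
    exact this
  have h2 : ph1 = 0 := by ext x; simpa using h0 x
  have h3 : bms = 0 := by
    have h4 : 𝓕⁻ (𝓕 bms) = bms := fourierInv_fourier_eq bms
    rw [← h4]
    change 𝓕⁻ ph1 = 0
    rw [h2]
    simp
  have h5 : bms 0 = 0 := by rw [h3]; rfl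
  rw [bms_apply] at h5
  unfold bmc at h5
  rw [bmp_zero] at h5
  simp at h5

/-- the mollifier -/
noncomputable def mol (x : E 2) : ℝ := ‖ph1 x‖ ^ 2 / mc

theorem conv_ne {f g : E 2 → ℂ} {a b : ℝ} (hf : ∀ x, f x ≠ 0 → ‖x‖ ≤ a) (hg : ∀ x, g x ≠ 0 → ‖x‖ ≤ b) (x : E 2)
    (h : (f ⋆[ContinuousLinearMap.mul ℂ ℂ] g) x ≠ 0) : ‖x‖ ≤ a + b := by
  by_contra hx
  apply h
  rw [convolution_def]
  rw [← integral_zero (E 2) ℂ (μ := volume)]
  congr 1
  ext t
  by_cases h1 : f t = 0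
  · simp [h1]
  by_cases h2 : g (x - t) = 0
  · simp [h2]
  exfalso
  apply hx
  calc ‖x‖ = ‖t + (x - t)‖ := by congr 1; abel
    _ ≤ ‖t‖ + ‖x - t‖ := norm_add_le _ _
    _ ≤ a + b := add_le_add (hf t h1) (hg _ h2)

theorem mol_mol : Mol mol where
  cont := by
    unfold mol
    exact (ph1.continuous.norm.pow 2).div_const _
  nonneg := fun x => div_nonneg (by positivity) mc_pos.le
  int := integrable_ph1_sq.div_const _
  one := by
    unfold mol
    rw [integral_div]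
    exact div_self mc_pos.ne'
  dec := by
    intro M
    obtain ⟨C, hC0, hC⟩ : ∃ C : ℝ, 0 ≤ C ∧ ∀ x, (1 + ‖x‖) ^ M * ‖ph1 x‖ ≤ C := by
      have h := ph1.one_add_le_sup_seminorm_apply (𝕜 := ℝ) (m := (M, 0)) (k := M) (n := 0) le_rfl le_rfl
      have h' : ∀ x, (1 + ‖x‖) ^ M * ‖ph1 x‖ ≤ 2 ^ (M, 0).1 * ((Finset.Iic (M, 0)).sup fun m => SchwartzMap.seminorm ℝ m.1 m.2) ph1 := by
        intro x
        have := h x
        rwa [norm_iteratedFDeriv_zero] at this
      exact ⟨_, le_trans (by positivity) (h' 0), h'⟩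
    obtain ⟨C2, hC20, hC2⟩ : ∃ C : ℝ, 0 ≤ C ∧ ∀ x, ‖ph1 x‖ ≤ C := by
      have h := ph1.one_add_le_sup_seminorm_apply (𝕜 := ℝ) (m := (0, 0)) (k := 0) (n := 0) le_rfl le_rfl
      have h' : ∀ x, ‖ph1 x‖ ≤ 2 ^ (0, 0).1 * ((Finset.Iic (0, 0)).sup fun m => SchwartzMap.seminorm ℝ m.1 m.2) ph1 := by
        intro x
        have := h x
        rwa [norm_iteratedFDeriv_zero, pow_zero, one_mul] at this
      exact ⟨_, le_trans (by positivity) (h' 0), h'⟩
    refine ⟨C * C2 / mc, div_nonneg (mul_nonneg hC0 hC20) mc_pos.le, fun x => ?_⟩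
    unfold mol
    rw [div_mul_eq_mul_div]
    refine div_le_div_of_nonneg_right ?_ mc_pos.le
    · calc ‖ph1 x‖ ^ 2 * (1 + ‖x‖) ^ M = ((1 + ‖x‖) ^ M * ‖ph1 x‖) * ‖ph1 x‖ := by ring
        _ ≤ C * C2 := mul_le_mul (hC x) (hC2 x) (norm_nonneg _) hC0
  supp := by
    intro η h
    have h1 : (fun x : E 2 => ((mol x : ℝ) : ℂ)) = fun x => (mc : ℂ)⁻¹ • (ph1 x * ph1 x) := by
      ext x
      rw [← ph1_sq]
      unfold mol
      push_cast
      rw [smul_eq_mul]
      ring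
    have h2 : ∀ x, (ph1 x * ph1 x) = (𝓕 (bmc ⋆[ContinuousLinearMap.mul ℂ ℂ] bmc) : E 2 → ℂ) x := by
      intro x
      rw [Real.fourier_mul_convolution_eq integrable_bmc integrable_bmc, ← ph1_eq]
    have h3 : (𝓕⁻ (fun x => ph1 x * ph1 x) : E 2 → ℂ) = (bmc ⋆[ContinuousLinearMap.mul ℂ ℂ] bmc) := by
      have h4 : (fun x => ph1 x * ph1 x) = (𝓕 (bmc ⋆[ContinuousLinearMap.mul ℂ ℂ] bmc) : E 2 → ℂ) := funext h2
      rw [h4]
      refine Continuous.fourierInv_fourier_eq ?_ ?_ ?_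
      · exact bmc_compact.continuous_convolution_left _ bmc_smooth.continuous integrable_bmc.locallyIntegrable
      · exact integrable_bmc.integrable_convolution _ integrable_bmc
      · rw [← h4]
        have := integrable_ph1_sq
        have h5 : (fun x => ph1 x * ph1 x) = fun x => ((‖ph1 x‖ ^ 2 : ℝ) : ℂ) := funext fun x => (ph1_sq x).symm
        rw [h5]
        exact this.ofReal
    have h6 : (𝓕 (fun x : E 2 => ((mol x : ℝ) : ℂ)) : E 2 → ℂ) η = (mc : ℂ)⁻¹ * (bmc ⋆[ContinuousLinearMap.mul ℂ ℂ] bmc) (-η) := by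
      rw [h1, ← h3, Real.fourierInv_eq_fourier_neg, neg_neg, Real.fourier_eq, Real.fourier_eq, ← smul_eq_mul, ← integral_smul]
      congr 1
      ext v
      rw [smul_comm]
    rw [h6] at h
    have h7 := conv_ne (fun x => bmc_ne) (fun x => bmc_ne) (-η) (right_ne_zero_of_mul h)
    rw [norm_neg] at h7
    linarith

end Vale.Agent.P076.ASM
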