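import Vale.Agent.P076.ASM.Fin2
import Vale.Agent.P076.ASM.Num

/-! # P076 / ASM : the parts of the main case -/

open MeasureTheory Complex FourierTransform Convolution Set Vale.Agent.P122.C2

set_option linter.all false

namespace Vale.Agent.P076.ASM

theorem Gr.sub {R : ℝ} {G : E 2 → ℂ} {A A' : Finset (Fin 2 → ℤ)} {t : (Fin 2 → ℤ) → ℝ} {α : ℝ} (h : Gr R G A t α) (hs : A' ⊆ A)
    {R' α' : ℝ} {G' : E 2 → ℂ} (hR : R ≤ R') (hb : ∀ k ∈ A', α' ≤ ‖evo G' (lp k) (t k) 0‖) : Gr R' G' A' t α' :=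
  ⟨fun k hk => (h.pos k (hs hk)).trans hR, fun k hk => h.t0 k (hs hk), fun k hk => (h.tR k (hs hk)).trans hR, hb⟩

/-- body of `StTS` -/
def TSb (cT CT δT : ℝ) : Prop := ∀ (R : ℝ) (G : E 2 → ℂ) (A : Finset (Fin 2 → ℤ)) (t : (Fin 2 → ℤ) → ℝ) (α θ b : ℝ), 1 ≤ R → 0 ≤ α →
  Bd 2 G → Gr R G A t α → (∀ η, G η ≠ 0 → |fn θ (fun i => η i) - b| ≤ R ^ (cT - 1 / 2)) →
    α ^ 2 * A.card ≤ CT * R ^ (2 / 3 : ℝ) * ((A.card : ℝ) / R ^ 2) ^ δT * ∫ η, ‖G η‖ ^ 2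

/-- body of `StNSf` -/
def NSb (c κN C' : ℝ) (K : ℕ) : Prop := ∀ (n : ℕ) (L : ℝ) (T : Finset (Fin 2 → ℤ)) (H : (Fin 2 → ℤ) → E 2 → ℂ) (Q α : ℝ)
  (A : Finset (Fin 2 → ℤ)) (t : (Fin 2 → ℤ) → ℝ), L = 2 ^ (K * n) → Fam L 3 T H → ∑ τ ∈ T, ∫ η, ‖H τ η‖ ^ 2 ≤ Q →
  (∀ θ v b : ℝ, plm (L ^ c) L θ v b T H ≤ L ^ (-c) * Q) → 0 ≤ α → Gr (L ^ 2) (fun η => ∑ τ ∈ T, H τ η) A t α →
    α ^ 2 * A.card ≤ C' * L ^ (4 / 3 - κN : ℝ) * Q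

/-- the context of one application -/
structure Ctx (L c c' δ' N0 : ℝ) (R : ℝ) (K : ℕ) : Prop where
  hL : 1 ≤ L
  hR : 1 ≤ R
  hn1 : R ≤ L ^ 2
  hn2 : L ^ 2 ≤ 4 ^ K * R
  hc'0 : 0 < c'
  hc'1 : c' ≤ 1 / 2
  hδ'0 : 0 < δ'
  hδ'1 : δ' ≤ 1
  hcd : c = c' * δ' / 64
  hN0 : 0 ≤ N0
  hN : N0 ≤ 2 * L ^ c

theorem Ctx.c0 {L c c' δ' N0 R : ℝ} {K : ℕ} (h : Ctx L c c' δ' N0 R K) : 0 < c := by
  rw [h.hcd]; have := h.hc'0; have := h.hδ'0; positivity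

theorem Ctx.cc {L c c' δ' N0 R : ℝ} {K : ℕ} (h : Ctx L c c' δ' N0 R K) : c ≤ c' / 64 := by
  rw [h.hcd]; have := h.hc'0; have := h.hδ'1; nlinarith

/-- (a) the rest -/
theorem part1 {c κN C' Cp δ R X M0 α L : ℝ} {K n : ℕ} (hC' : 0 ≤ C') (hCp : 0 ≤ Cp) (hκN : 0 < κN) (hδ2 : δ ≤ κN / 4)
    (NS : NSb c κN C' K) (hLdef : L = 2 ^ (K * n)) (hL : 1 ≤ L) (hR : 1 ≤ R) (hn1 : R ≤ L ^ 2) (hn2 : L ^ 2 ≤ 4 ^ K * R)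
    (hgain : R ^ (-(2 * δ)) ≤ X) (hM0 : 0 ≤ M0) (hα : 0 ≤ α)
    {G : E 2 → ℂ} {A Af : Finset (Fin 2 → ℤ)} {t : (Fin 2 → ℤ) → ℝ} (hGr : Gr R G A t α) {H : (Fin 2 → ℤ) → E 2 → ℂ}
    (hAf : Af ⊆ A) (hbig : ∀ k ∈ Af, α / 4 ≤ ‖evo (fun η => ∑ τ ∈ TT L, H τ η) (lp k) (t k) 0‖)
    (hfam : Fam L 3 (TT L) H) (hmassH : ∑ τ ∈ TT L, ∫ η, ‖H τ η‖ ^ 2 ≤ (1 + Cp) * M0)
    (hplmH : ∀ θ v b : ℝ, plm (L ^ c) L θ v b (TT L) H ≤ L ^ (-c) * ((1 + Cp) * M0)) :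
    α ^ 2 * Af.card ≤ 16 * (C' * 4 ^ K * (1 + Cp)) * (R ^ (2 / 3 : ℝ) * X * M0) := by
  have hR0 : 0 < R := by linarith
  have hR23 : 0 < R ^ (2 / 3 : ℝ) := Real.rpow_pos_of_pos hR0 _
  have h1 := NS n L (TT L) H ((1 + Cp) * M0) (α / 4) Af t hLdef hfam hmassH hplmH (by positivity)
    (hGr.sub hAf hn1 hbig)
  have h2 := num_rest hL hR hn1 hn2 hκN hδ2
  have h3 : L ^ (4 / 3 - κN : ℝ) ≤ 4 ^ K * (R ^ (2 / 3 : ℝ) * X) :=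
    h2.trans (mul_le_mul_of_nonneg_left (mul_le_mul_of_nonneg_left hgain hR23.le) (by positivity))
  have h4 : α ^ 2 * Af.card = 16 * ((α / 4) ^ 2 * Af.card) := by ring
  rw [h4]
  have hQ0 : 0 ≤ (1 + Cp) * M0 := by positivity
  calc 16 * ((α / 4) ^ 2 * Af.card) ≤ 16 * (C' * L ^ (4 / 3 - κN : ℝ) * ((1 + Cp) * M0)) := by linarith
    _ ≤ 16 * (C' * (4 ^ K * (R ^ (2 / 3 : ℝ) * X)) * ((1 + Cp) * M0)) := by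
        refine mul_le_mul_of_nonneg_left (mul_le_mul_of_nonneg_right (mul_le_mul_of_nonneg_left h3 hC') hQ0) (by norm_num)
    _ = 16 * (C' * 4 ^ K * (1 + Cp)) * (R ^ (2 / 3 : ℝ) * X * M0) := by ring

/-- the plates chosen -/
structure Chosen (p L ρ κ r : ℝ) (N : ℕ) (γ : ℕ → Plt) (cl : ℕ → ℕ) : Prop where
  v0 : ∀ i < N, 0 ≤ (γ i).v
  v10 : ∀ i < N, (γ i).v ≤ 10
  mem : ∀ i ∈ VV κ N γ, cl i ∈ VV κ N γ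
  dist : ∀ i ∈ VV κ N γ, ‖mv (γ i) - mv (γ (cl i))‖ ≤ (VV κ N γ).card * r
  sep : ∀ i ∈ VV κ N γ, ∀ j ∈ VV κ N γ, cl i ≠ cl j → r < ‖mv (γ i) - mv (γ j)‖

open Classical in
/-- one cluster -/
theorem part2one {cT CT δT : ℝ} (hCT : 0 ≤ CT) (TS : TSb cT CT δT) {c c' δ' δ R X α L ρ : ℝ} {K N : ℕ}
    (hx : Ctx L c c' δ' N R K) (hcT2 : c' ≤ cT / 2) (hR80 : 80 ≤ R ^ (cT / 2)) (hδ0 : 0 < δ) (hδ1 : δ ≤ δT) (hα : 0 ≤ α)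
    {G : E 2 → ℂ} (hG : Bd 1 G) {A Cf : Finset (Fin 2 → ℤ)} {t : (Fin 2 → ℤ) → ℝ} (hGr : Gr R G A t α) (ha : 0 < (A.card : ℝ))
    (hX : X = ((A.card : ℝ) / R ^ 2) ^ δ) (ha15 : (A.card : ℝ) / R ^ 2 ≤ 15)
    {γ : ℕ → Plt} {cl : ℕ → ℕ} (hch : Chosen (L ^ (2 * c)) L ρ (L ^ (-(c' / 4))) (L ^ (c' - 1)) N γ cl) {j : ℕ}
    (hj : j ∈ (VV (L ^ (-(c' / 4))) N γ).image cl) (hCf : Cf ⊆ A)
    (hbig : ∀ k ∈ Cf, α / 2 ≤ ‖∑ i ∈ (VV (L ^ (-(c' / 4))) N γ).filter (fun i => cl i = j),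
      evo (Hi L (D0 (L ^ (2 * c)) L ρ γ) G i) (lp k) (t k) 0‖) :
    α ^ 2 * (Cf.card : ℝ) ≤ 4 * (CT * R ^ (2 / 3 : ℝ) * (15 ^ δT * X)) *
      ∫ η, ‖∑ i ∈ (VV (L ^ (-(c' / 4))) N γ).filter (fun i => cl i = j), Hi L (D0 (L ^ (2 * c)) L ρ γ) G i η‖ ^ 2 := by
  have hL := hx.hL
  have hL0 : 0 < L := by linarith
  have hR := hx.hR
  have hR0 : 0 < R := by linarith
  have hp1 : 1 ≤ L ^ (2 * c) := Real.one_le_rpow hL (by have := hx.c0; linarith)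
  have hκ0 : 0 < L ^ (-(c' / 4)) := Real.rpow_pos_of_pos hL0 _
  have hr0 : 0 < L ^ (c' - 1) := Real.rpow_pos_of_pos hL0 _
  have hRg : Rgs (Finset.range N) (D0 (L ^ (2 * c)) L ρ γ) := rgs_D0 _ L ρ γ N
  set κ := L ^ (-(c' / 4)) with hκ
  set D := D0 (L ^ (2 * c)) L ρ γ with hD
  have hVS : VV κ N γ ⊆ Finset.range N := Finset.filter_subset _ _
  set Cj := (VV κ N γ).filter (fun i => cl i = j) with hCj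
  have hCjS : Cj ⊆ Finset.range N := (Finset.filter_subset _ _).trans hVS
  have hbd : Bd 2 (fun η => ∑ i ∈ Cj, Hi L D G i η) := Bd.sum _ fun i hi => Hi_bd hL hRg hG (hCjS hi)
  obtain ⟨i1, hi1, hi1j⟩ := Finset.mem_image.1 hj
  have hjV : j ∈ VV κ N γ := by rw [← hi1j]; exact hch.mem i1 hi1
  have hjN : j < N := Finset.mem_range.1 (hVS hjV)
  have hst : ∀ η, (∑ i ∈ Cj, Hi L D G i η) ≠ 0 → |fn (γ j).θ (fun i => η i) - (γ j).v / 2| ≤ R ^ (cT - 1 / 2) := by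
    intro η hη
    obtain ⟨i, hi, hi0⟩ := Finset.exists_ne_zero_of_sum_ne_zero hη
    have hiV := (Finset.mem_filter.1 hi).1
    have hij := (Finset.mem_filter.1 hi).2
    have hη2 : ‖η‖ ≤ 2 := (Hi_bd hL hRg hG (hCjS hi)).supp η hi0
    have hd : ‖mv (γ i) - mv (γ j)‖ ≤ (VV κ N γ).card * L ^ (c' - 1) := by rw [← hij]; exact hch.dist i hiV
    have h1 := strip_cl (κ := κ) hL hp1 hκ0 (by positivity : 0 ≤ ((VV κ N γ).card : ℝ) * L ^ (c' - 1)) hi0 hη2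
      (Finset.mem_filter.1 hiV).2 (Finset.mem_filter.1 hjV).2 (hch.v10 j hjN) hd
    have hVN : ((VV κ N γ).card : ℝ) ≤ N := by
      have := Finset.card_le_card hVS
      rw [Finset.card_range] at this
      exact Nat.cast_le.2 this
    exact h1.trans (num_strip2 hL hR hx.hn1 hx.c0 hx.cc hx.hc'1 hR80 hcT2 hVN hx.hN)
  have hev : ∀ k, evo (fun η => ∑ i ∈ Cj, Hi L D G i η) (lp k) (t k) 0 = ∑ i ∈ Cj, evo (Hi L D G i) (lp k) (t k) 0 := fun k =>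
    evo_sum Cj (fun i hi => (Hi_bd hL hRg hG (hCjS hi)).integrable) _ _
  have h1 := TS R (fun η => ∑ i ∈ Cj, Hi L D G i η) Cf t (α / 2) (γ j).θ ((γ j).v / 2) hR (by positivity) hbd
    (hGr.sub hCf le_rfl fun k hk => by rw [hev]; exact hbig k hk) hst
  have h2 : ((Cf.card : ℝ) / R ^ 2) ^ δT ≤ 15 ^ δT * X := by
    rw [hX]
    refine num_mono (by positivity) ?_ (by positivity) ha15 hδ0 hδ1
    refine div_le_div_of_nonneg_right ?_ (by positivity)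
    exact Nat.cast_le.2 (Finset.card_le_card hCf)
  have hI : 0 ≤ ∫ η, ‖∑ i ∈ Cj, Hi L D G i η‖ ^ 2 := integral_nonneg fun _ => by positivity
  have h4 : α ^ 2 * (Cf.card : ℝ) = 4 * ((α / 2) ^ 2 * Cf.card) := by ring
  rw [h4, mul_assoc 4]
  refine mul_le_mul_of_nonneg_left (h1.trans ?_) (by norm_num)
  refine mul_le_mul_of_nonneg_right (mul_le_mul_of_nonneg_left h2 (by positivity)) hI

/-- one exceptional plate -/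
theorem part3one {cT CT δT : ℝ} (hCT : 0 ≤ CT) (TS : TSb cT CT δT) {c c' δ' δ R X α L ρ B : ℝ} {K N : ℕ}
    (hx : Ctx L c c' δ' N R K) (hcT2 : c' ≤ cT / 2) (hR80 : 80 ≤ R ^ (cT / 2)) (hδ'T : δ' ≤ δT) (hδ3 : δ ≤ c' * δ' / 64)
    (hα : 0 ≤ α) {G : E 2 → ℂ} (hG : Bd 1 G) {A Bf : Finset (Fin 2 → ℤ)} {t : (Fin 2 → ℤ) → ℝ} (hGr : Gr R G A t α)
    (hgain : R ^ (-(2 * δ)) ≤ X) {γ : ℕ → Plt} {i : ℕ} (hi : i < N) (hBfA : Bf ⊆ A) (hB : (Bf.card : ℝ) ≤ 642 * L ^ (4 - c' / 8))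
    (hbig : ∀ k ∈ Bf, α / (2 * N) ≤ ‖evo (Hi L (D0 (L ^ (2 * c)) L ρ γ) G i) (lp k) (t k) 0‖) :
    α ^ 2 * (Bf.card : ℝ) ≤ (CT * R ^ (2 / 3 : ℝ) * (16 * (642 * 16 ^ K) ^ δT * X)) *
      ∫ η, ‖Hi L (D0 (L ^ (2 * c)) L ρ γ) G i η‖ ^ 2 := by
  have hL := hx.hL
  have hL0 : 0 < L := by linarith
  have hR := hx.hR
  have hR0 : 0 < R := by linarith
  have hp1 : 1 ≤ L ^ (2 * c) := Real.one_le_rpow hL (by have := hx.c0; linarith)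
  have hRg : Rgs (Finset.range N) (D0 (L ^ (2 * c)) L ρ γ) := rgs_D0 _ L ρ γ N
  set D := D0 (L ^ (2 * c)) L ρ γ with hD
  have hN1 : 0 < (N : ℝ) := Nat.cast_pos.2 (by omega)
  have hcc := hx.cc
  have hc0 := hx.c0
  have hc'1 := hx.hc'1
  have hst : ∀ η, Hi L D G i η ≠ 0 → |fn (γ i).θ (fun i => η i) - (γ i).v / 2| ≤ R ^ (cT - 1 / 2) := by
    intro η hη
    have h1 := strip_i hL hp1 hη
    exact h1.trans (num_strip1 hL hR hx.hn1 (by linarith) hR80 (by linarith))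
  have h1 := TS R (Hi L D G i) Bf t (α / (2 * N)) (γ i).θ ((γ i).v / 2) hR (by positivity) (Hi_bd hL hRg hG (Finset.mem_range.2 hi))
    (hGr.sub hBfA le_rfl hbig) hst
  have h2 := num_badgain hL hR hx.hn1 hx.hn2 hx.hc'0 hx.hδ'0 hx.hcd hδ'T hδ3 hx.hN0 hx.hN (Nat.cast_nonneg _) hB
  have h3 : (2 * (N:ℝ)) ^ 2 * ((Bf.card : ℝ) / R ^ 2) ^ δT ≤ 16 * (642 * 16 ^ K) ^ δT * X :=
    h2.trans (mul_le_mul_of_nonneg_left hgain (by positivity))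
  have hI : 0 ≤ ∫ η, ‖Hi L D G i η‖ ^ 2 := integral_nonneg fun _ => by positivity
  have h4 : α ^ 2 * (Bf.card : ℝ) = (2 * N) ^ 2 * ((α / (2 * N)) ^ 2 * Bf.card) := by
    rw [div_pow]; field_simp
  rw [h4]
  calc (2 * (N:ℝ)) ^ 2 * ((α / (2 * N)) ^ 2 * Bf.card)
      ≤ (2 * (N:ℝ)) ^ 2 * (CT * R ^ (2 / 3 : ℝ) * ((Bf.card : ℝ) / R ^ 2) ^ δT * ∫ η, ‖Hi L D G i η‖ ^ 2) :=
        mul_le_mul_of_nonneg_left h1 (by positivity)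
    _ = (CT * R ^ (2 / 3 : ℝ) * ((2 * (N:ℝ)) ^ 2 * ((Bf.card : ℝ) / R ^ 2) ^ δT)) * ∫ η, ‖Hi L D G i η‖ ^ 2 := by ring
    _ ≤ (CT * R ^ (2 / 3 : ℝ) * (16 * (642 * 16 ^ K) ^ δT * X)) * ∫ η, ‖Hi L D G i η‖ ^ 2 :=
        mul_le_mul_of_nonneg_right (mul_le_mul_of_nonneg_left h3 (by positivity)) hI

end Vale.Agent.P076.ASM
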