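import Vale.Agent.P076.ASM.Wt

/-! # P076 / ASM : cells, pieces, masses -/

open MeasureTheory Complex FourierTransform Convolution Set
open scoped ContDiff

set_option linter.all false

namespace Vale.Agent.P076.ASM

/-! ## Plancherel -/

theorem lp_norm_sq (f : Lp ℂ 2 (volume : Measure (E 2))) : ‖f‖ ^ 2 = ∫ x, ‖f x‖ ^ 2 := by
  have h := L2.inner_def (𝕜 := ℂ) f f
  rw [inner_self_eq_norm_sq_to_K] at h
  have h2 : ∫ x, inner ℂ (f x) (f x) = ((∫ x, ‖f x‖ ^ 2 : ℝ) : ℂ) := by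
    rw [← integral_complex_ofReal]
    congr 1
    ext x
    rw [inner_self_eq_norm_sq_to_K]
    push_cast
    rfl
  rw [h2] at h
  have h3 : (((‖f‖ ^ 2 : ℝ)) : ℂ) = ((∫ x, ‖f x‖ ^ 2 : ℝ) : ℂ) := by
    rw [← h]; push_cast; rfl
  exact_mod_cast h3

theorem planch {G : E 2 → ℂ} (h1 : Integrable G) (h2 : MemLp G 2) :
    ∫ x, ‖(𝓕⁻ G : E 2 → ℂ) x‖ ^ 2 = ∫ η, ‖G η‖ ^ 2 := by
  have e1 : ∫ x, ‖(𝓕⁻ G : E 2 → ℂ) x‖ ^ 2 = ‖(𝓕⁻ (h2.toLp G) : Lp ℂ 2 (volume : Measure (E 2)))‖ ^ 2 := by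
    rw [lp_norm_sq]
    refine integral_congr_ae ?_
    filter_upwards [fourierInv_L2_ae_eq h1 h2] with x hx
    rw [hx]
  have e2 : ‖(𝓕⁻ (h2.toLp G) : Lp ℂ 2 (volume : Measure (E 2)))‖ = ‖h2.toLp G‖ := by
    rw [← Lp.norm_fourier_eq, fourier_fourierInv_eq]
  have e3 : ‖h2.toLp G‖ ^ 2 = ∫ η, ‖G η‖ ^ 2 := by
    rw [lp_norm_sq]
    refine integral_congr_ae ?_
    filter_upwards [h2.coeFn_toLp] with x hx
    rw [hx]
  rw [e1, e2, e3]

theorem memLp_inv {G : E 2 → ℂ} (h1 : Integrable G) (h2 : MemLp G 2) : MemLp (𝓕⁻ G : E 2 → ℂ) 2 :=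
  (Lp.memLp (𝓕⁻ (h2.toLp G) : Lp ℂ 2 (volume : Measure (E 2)))).ae_eq (fourierInv_L2_ae_eq h1 h2)

namespace Bd

variable {r r' : ℝ} {G H : E 2 → ℂ}

theorem mono (h : Bd r G) (hr : r ≤ r') : Bd r' G := ⟨h.meas, h.bdd, fun η hη => (h.supp η hη).trans hr⟩

theorem integrable (h : Bd r G) : Integrable G := integrable_of_bdd h.meas h.bdd h.supp

theorem memLp (h : Bd r G) : MemLp G 2 := memLp_of_bdd h.meas h.bdd h.supp 2

theorem planch (h : Bd r G) : ∫ x, ‖(𝓕⁻ G : E 2 → ℂ) x‖ ^ 2 = ∫ η, ‖G η‖ ^ 2 := ASM.planch h.integrable h.memLp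

theorem int_sq (h : Bd r G) : Integrable fun x => ‖(𝓕⁻ G : E 2 → ℂ) x‖ ^ 2 :=
  (memLp_inv h.integrable h.memLp).integrable_norm_pow (by norm_num)

theorem int_sq' (h : Bd r G) : Integrable fun x => ‖G x‖ ^ 2 := h.memLp.integrable_norm_pow (by norm_num)

theorem zero : Bd r (0 : E 2 → ℂ) := ⟨measurable_zero, ⟨0, by simp⟩, fun η h => absurd rfl h⟩

theorem add (h : Bd r G) (h' : Bd r H) : Bd r (fun η => G η + H η) := by
  obtain ⟨b, hb⟩ := h.bdd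
  obtain ⟨b', hb'⟩ := h'.bdd
  refine ⟨h.meas.add h'.meas, ⟨b + b', fun η => (norm_add_le _ _).trans (add_le_add (hb η) (hb' η))⟩, fun η hη => ?_⟩
  by_cases h1 : G η = 0
  · by_cases h2 : H η = 0
    · exact absurd (by rw [h1, h2, add_zero]) hη
    · exact h'.supp η h2
  · exact h.supp η h1

theorem neg (h : Bd r G) : Bd r (fun η => - G η) := by
  obtain ⟨b, hb⟩ := h.bdd
  exact ⟨h.meas.neg, ⟨b, fun η => by rw [norm_neg]; exact hb η⟩, fun η hη => h.supp η (neg_ne_zero.1 hη)⟩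

theorem sum {ι : Type*} (s : Finset ι) {F : ι → E 2 → ℂ} (h : ∀ i ∈ s, Bd r (F i)) : Bd r (fun η => ∑ i ∈ s, F i η) := by
  classical
  induction s using Finset.induction_on with
  | empty =>
    simp only [Finset.sum_empty]
    exact zero
  | insert a s ha ih =>
    have h1 := (h a (Finset.mem_insert_self _ _)).add (ih fun i hi => h i (Finset.mem_insert_of_mem hi))
    have h2 : (fun η => ∑ i ∈ insert a s, F i η) = fun η => F a η + ∑ i ∈ s, F i η := by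
      ext η
      rw [Finset.sum_insert ha]
    rw [h2]
    exact h1

theorem indicator (h : Bd r G) {S : Set (E 2)} (hS : MeasurableSet S) : Bd r (S.indicator G) := by
  obtain ⟨b, hb⟩ := h.bdd
  refine ⟨h.meas.indicator hS, ⟨b, fun η => (norm_indicator_le_norm_self _ _).trans (hb η)⟩, fun η hη => ?_⟩
  exact h.supp η fun h0 => hη (by by_cases hx : η ∈ S <;> simp [hx, h0])

end Bd

/-! ## cells -/

/-- the frequency cell -/
def cel (L : ℝ) (τ : Fin 2 → ℤ) : Set (E 2) := {η | ∀ k, ⌊2 * L * η k⌋ = τ k}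

theorem measurableSet_cel (L : ℝ) (τ : Fin 2 → ℤ) : MeasurableSet (cel L τ) := by
  have h : cel L τ = ⋂ k, {η : E 2 | ⌊2 * L * η k⌋ = τ k} := by ext; simp [cel]
  rw [h]
  refine MeasurableSet.iInter fun k => ?_
  have h1 : Measurable fun η : E 2 => ⌊2 * L * η k⌋ := by
    refine Int.measurable_floor.comp ?_
    exact (measurable_const.mul (EuclideanSpace.proj k : E 2 →L[ℝ] ℝ).measurable)
  exact h1 (measurableSet_singleton _)

/-- the cut data -/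
noncomputable def Gc (L : ℝ) (G : E 2 → ℂ) (τ : Fin 2 → ℤ) : E 2 → ℂ := (cel L τ).indicator G

theorem Gc_bd {r L : ℝ} {G : E 2 → ℂ} (h : Bd r G) (τ : Fin 2 → ℤ) : Bd r (Gc L G τ) := h.indicator (measurableSet_cel L τ)

theorem cel_near {L : ℝ} (hL : 0 < L) {τ : Fin 2 → ℤ} {η : E 2} (h : η ∈ cel L τ) (k : Fin 2) : |2 * η k - τ k / L| ≤ 1 / L := by
  have h1 := h k
  have h2 : (τ k : ℝ) ≤ 2 * L * η k := by rw [← h1]; exact Int.floor_le _
  have h3 : 2 * L * η k < τ k + 1 := by rw [← h1]; exact Int.lt_floor_add_one _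
  rw [abs_le]
  constructor
  · rw [neg_le_sub_iff_le_add, div_le_iff₀ hL]
    have : (2 * η k + 1 / L) * L = 2 * L * η k + 1 := by field_simp
    rw [this]
    linarith
  · rw [sub_le_iff_le_add, ← add_div, le_div_iff₀ hL]
    linarith

/-- the cells that meet the ball of radius 1 -/
noncomputable def TT (L : ℝ) : Finset (Fin 2 → ℤ) := Fintype.piFinset fun _ => Finset.Icc (-(⌈2 * L⌉ + 1)) (⌈2 * L⌉ + 1)

theorem abs_apply_le (η : E 2) (k : Fin 2) : |η k| ≤ ‖η‖ := by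
  have := PiLp.norm_apply_le η k
  simpa using this

theorem mem_TT {L : ℝ} (hL : 0 < L) {η : E 2} (h : ‖η‖ ≤ 1) : (fun k => ⌊2 * L * η k⌋) ∈ TT L := by
  unfold TT
  rw [Fintype.mem_piFinset]
  intro k
  have h1 := (abs_apply_le η k).trans h
  rw [abs_le] at h1
  rw [Finset.mem_Icc]
  have h4 : 2 * L * η k ≤ 2 * L := by nlinarith
  have h5 : -(2 * L) ≤ 2 * L * η k := by nlinarith
  constructor
  · rw [Int.le_floor]
    push_cast
    have := Int.le_ceil (2 * L)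
    linarith
  · have h6 : ⌊2 * L * η k⌋ ≤ ⌊2 * L⌋ := Int.floor_le_floor h4
    have h7 : ⌊2 * L⌋ ≤ ⌈2 * L⌉ := Int.floor_le_ceil _
    linarith

theorem sum_Gc {L : ℝ} (hL : 0 < L) {G : E 2 → ℂ} (h : Bd 1 G) (η : E 2) : ∑ τ ∈ TT L, Gc L G τ η = G η := by
  by_cases h0 : G η = 0
  · rw [h0]
    refine Finset.sum_eq_zero fun τ _ => ?_
    unfold Gc
    by_cases hx : η ∈ cel L τ <;> simp [hx, h0]
  · rw [Finset.sum_eq_single (fun k => ⌊2 * L * η k⌋)]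
    · unfold Gc
      rw [indicator_of_mem]
      intro k; rfl
    · intro τ _ hne
      unfold Gc
      rw [indicator_of_notMem]
      intro hc
      exact hne (funext fun k => (hc k).symm)
    · intro hn
      exact absurd (mem_TT hL (h.supp η h0)) hn

theorem sum_Gc_sq {L : ℝ} (hL : 0 < L) {G : E 2 → ℂ} (h : Bd 1 G) (η : E 2) : ∑ τ ∈ TT L, ‖Gc L G τ η‖ ^ 2 = ‖G η‖ ^ 2 := by
  by_cases h0 : G η = 0
  · rw [h0]
    rw [norm_zero, zero_pow (by norm_num)]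
    refine Finset.sum_eq_zero fun τ _ => ?_
    unfold Gc
    by_cases hx : η ∈ cel L τ <;> simp [hx, h0]
  · rw [Finset.sum_eq_single (fun k => ⌊2 * L * η k⌋)]
    · unfold Gc
      rw [indicator_of_mem]
      intro k; rfl
    · intro τ _ hne
      unfold Gc
      rw [indicator_of_notMem]
      · simp
      intro hc
      exact hne (funext fun k => (hc k).symm)
    · intro hn
      exact absurd (mem_TT hL (h.supp η h0)) hn

/-- total mass of the cells -/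
theorem sum_mass {L : ℝ} (hL : 0 < L) {G : E 2 → ℂ} (h : Bd 1 G) :
    ∑ τ ∈ TT L, ∫ x, ‖(𝓕⁻ (Gc L G τ) : E 2 → ℂ) x‖ ^ 2 = ∫ η, ‖G η‖ ^ 2 := by
  rw [Finset.sum_congr rfl fun τ _ => (Gc_bd h τ).planch, ← integral_finsetSum _ fun τ _ => (Gc_bd h τ).int_sq']
  congr 1
  ext η
  exact sum_Gc_sq hL h η

/-! ## pieces -/

theorem pc_bd {L r : ℝ} (hL : 0 < L) {B : Set (E 2)} (hB : MeasurableSet B) (hB2 : Bornology.IsBounded B) {G : E 2 → ℂ}
    (h : Bd r G) : Bd (r + 1 / L) (pc L B G) := by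
  have hs : ∀ η, pc L B G η ≠ 0 → ‖η‖ ≤ r + 1 / L := by
    intro η hη
    obtain ⟨ζ, h1, h2⟩ := pc_ne hL hB hB2 hη
    have h3 := h.supp ζ h1
    calc ‖η‖ = ‖ζ + (η - ζ)‖ := by congr 1; abel
      _ ≤ ‖ζ‖ + ‖η - ζ‖ := norm_add_le _ _
      _ ≤ r + 1 / L := by linarith
  have hc := continuous_pc hL hB hB2 h.integrable
  refine ⟨hc.measurable, ?_, hs⟩
  exact (hasCompactSupport_of hs).exists_bound_of_continuous hc

theorem pc_cell {L : ℝ} (hL : 0 < L) {B : Set (E 2)} (hB : MeasurableSet B) (hB2 : Bornology.IsBounded B) {G : E 2 → ℂ}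
    {τ : Fin 2 → ℤ} {η : E 2} (h : pc L B (Gc L G τ) η ≠ 0) (k : Fin 2) : |2 * η k - τ k / L| ≤ 3 / L := by
  obtain ⟨ζ, h1, h2⟩ := pc_ne hL hB hB2 h
  have h3 : ζ ∈ cel L τ := by
    by_contra hn
    exact h1 (indicator_of_notMem hn _)
  have h4 := cel_near hL h3 k
  have h5 := (abs_apply_le (η - ζ) k).trans h2
  have h6 : (η - ζ) k = η k - ζ k := rfl
  rw [h6] at h5
  calc |2 * η k - τ k / L| = |2 * (η k - ζ k) + (2 * ζ k - τ k / L)| := by congr 1; ring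
    _ ≤ |2 * (η k - ζ k)| + |2 * ζ k - τ k / L| := abs_add_le _ _
    _ ≤ 2 * (1 / L) + 1 / L := by
        rw [abs_mul, abs_of_pos (by norm_num : (0:ℝ) < 2)]
        linarith
    _ = 3 / L := by ring

/-! ## overlap -/

theorem overlap_card {L c0 : ℝ} (hL : 0 < L) (hc : 0 ≤ c0) (T : Finset (Fin 2 → ℤ)) (η : E 2)
    (h : ∀ τ ∈ T, ∀ k, |2 * η k - τ k / L| ≤ c0 / L) : (T.card : ℝ) ≤ (2 * c0 + 1) ^ 2 := by
  have h1 : T ⊆ Fintype.piFinset fun k => Finset.Icc ⌈2 * L * η k - c0⌉ ⌊2 * L * η k + c0⌋ := by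
    intro τ hτ
    rw [Fintype.mem_piFinset]
    intro k
    have h2 := h τ hτ k
    have h3 : |2 * L * η k - τ k| ≤ c0 := by
      have : 2 * L * η k - τ k = L * (2 * η k - τ k / L) := by field_simp
      rw [this, abs_mul, abs_of_pos hL]
      calc L * |2 * η k - τ k / L| ≤ L * (c0 / L) := mul_le_mul_of_nonneg_left h2 hL.le
        _ = c0 := by field_simp
    rw [abs_le] at h3
    rw [Finset.mem_Icc, Int.ceil_le, Int.le_floor]
    constructor <;> linarith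
  have h2 := Finset.card_le_card h1
  rw [Fintype.card_piFinset, Fin.prod_univ_two, Int.card_Icc, Int.card_Icc] at h2
  have h3 : ∀ k : Fin 2, (((⌊2 * L * η k + c0⌋ + 1 - ⌈2 * L * η k - c0⌉).toNat : ℕ) : ℝ) ≤ 2 * c0 + 1 := by
    intro k
    have h4 : (((⌊2 * L * η k + c0⌋ + 1 - ⌈2 * L * η k - c0⌉).toNat : ℕ) : ℝ) =
        ((max (⌊2 * L * η k + c0⌋ + 1 - ⌈2 * L * η k - c0⌉) 0 : ℤ) : ℝ) := by
      rw [← Int.ofNat_toNat]
      exact (Int.cast_natCast _).symm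
    rw [h4]
    push_cast
    rw [max_le_iff]
    constructor
    · have h5 := Int.floor_le (2 * L * η k + c0)
      have h6 := Int.le_ceil (2 * L * η k - c0)
      linarith
    · linarith
  calc (T.card : ℝ) ≤ (((⌊2 * L * η 0 + c0⌋ + 1 - ⌈2 * L * η 0 - c0⌉).toNat * (⌊2 * L * η 1 + c0⌋ + 1 - ⌈2 * L * η 1 - c0⌉).toNat : ℕ) : ℝ) := by
        exact_mod_cast h2
    _ ≤ (2 * c0 + 1) ^ 2 := by
        push_cast
        rw [sq]
        exact mul_le_mul (h3 0) (h3 1) (by positivity) (by linarith)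

theorem sq_sum_le {L c0 : ℝ} (hL : 0 < L) (hc : 0 ≤ c0) (T : Finset (Fin 2 → ℤ)) (H : (Fin 2 → ℤ) → E 2 → ℂ)
    (h : ∀ τ ∈ T, ∀ η, H τ η ≠ 0 → ∀ k, |2 * η k - τ k / L| ≤ c0 / L) (η : E 2) :
    ‖∑ τ ∈ T, H τ η‖ ^ 2 ≤ (2 * c0 + 1) ^ 2 * ∑ τ ∈ T, ‖H τ η‖ ^ 2 := by
  classical
  have h1 : ∑ τ ∈ T, H τ η = ∑ τ ∈ T.filter (fun τ => H τ η ≠ 0), H τ η := by
    rw [Finset.sum_filter_ne_zero]
  have h2 : ‖∑ τ ∈ T.filter (fun τ => H τ η ≠ 0), H τ η‖ ≤ ∑ τ ∈ T.filter (fun τ => H τ η ≠ 0), ‖H τ η‖ := norm_sum_le _ _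
  have h3 := sq_sum_le_card_mul_sum_sq (s := T.filter (fun τ => H τ η ≠ 0)) (f := fun τ => ‖H τ η‖)
  have h4 : ((T.filter (fun τ => H τ η ≠ 0)).card : ℝ) ≤ (2 * c0 + 1) ^ 2 :=
    overlap_card hL hc _ η fun τ hτ => by
      rw [Finset.mem_filter] at hτ
      exact h τ hτ.1 η hτ.2
  rw [h1]
  calc ‖∑ τ ∈ T.filter (fun τ => H τ η ≠ 0), H τ η‖ ^ 2 ≤ (∑ τ ∈ T.filter (fun τ => H τ η ≠ 0), ‖H τ η‖) ^ 2 :=
        pow_le_pow_left₀ (norm_nonneg _) h2 2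
    _ ≤ (T.filter (fun τ => H τ η ≠ 0)).card * ∑ τ ∈ T.filter (fun τ => H τ η ≠ 0), ‖H τ η‖ ^ 2 := h3
    _ ≤ (2 * c0 + 1) ^ 2 * ∑ τ ∈ T.filter (fun τ => H τ η ≠ 0), ‖H τ η‖ ^ 2 := by
        refine mul_le_mul_of_nonneg_right h4 (Finset.sum_nonneg fun _ _ => by positivity)
    _ ≤ (2 * c0 + 1) ^ 2 * ∑ τ ∈ T, ‖H τ η‖ ^ 2 := by
        refine mul_le_mul_of_nonneg_left ?_ (by positivity)
        exact Finset.sum_le_sum_of_subset_of_nonneg (Finset.filter_subset _ _) fun _ _ _ => by positivity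

theorem int_sq_sum_le {L c0 r : ℝ} (hL : 0 < L) (hc : 0 ≤ c0) (T : Finset (Fin 2 → ℤ)) (H : (Fin 2 → ℤ) → E 2 → ℂ)
    (hb : ∀ τ ∈ T, Bd r (H τ))
    (h : ∀ τ ∈ T, ∀ η, H τ η ≠ 0 → ∀ k, |2 * η k - τ k / L| ≤ c0 / L) :
    ∫ η, ‖∑ τ ∈ T, H τ η‖ ^ 2 ≤ (2 * c0 + 1) ^ 2 * ∑ τ ∈ T, ∫ η, ‖H τ η‖ ^ 2 := by
  rw [← integral_finsetSum _ fun τ hτ => (hb τ hτ).int_sq', ← integral_const_mul]
  refine integral_mono (Bd.sum T hb).int_sq' ?_ fun η => sq_sum_le hL hc T H h η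
  exact (integrable_finsetSum _ fun τ hτ => (hb τ hτ).int_sq').const_mul _

end Vale.Agent.P076.ASM
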