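import Vale.Agent.P076.ASM.Dcp

/-! # P076 / ASM : plates, their regions, greedy choice -/

open MeasureTheory Complex FourierTransform Convolution Set Vale.Agent.P122.C2
open scoped ContDiff

set_option linter.all false

namespace Vale.Agent.P076.ASM

/-- plate parameters -/
structure Plt where
  θ : ℝ
  v : ℝ
  b : ℝ

instance : Inhabited Plt := ⟨⟨0, 0, 0⟩⟩

/-- normal coordinate -/
noncomputable def nx (θ : ℝ) (x : E 2) : ℝ := fn θ (fun k => x k)

/-- region of the plate at time `0` for the cell `τ` -/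
def Pr (p L ρ : ℝ) (γ : Plt) (τ : Fin 2 → ℤ) : Set (E 2) :=
  {x | |fn γ.θ (fun k => (τ k : ℝ) / L) - γ.v| ≤ p / L ∧ |nx γ.θ x - γ.b| ≤ p * L ∧ ‖x‖ ≤ ρ}

theorem nx_eq (θ : ℝ) (x : E 2) : nx θ x = -Real.sin θ * x 0 + Real.cos θ * x 1 := rfl

theorem continuous_nx (θ : ℝ) : Continuous (nx θ) := by
  unfold nx fn
  fun_prop

theorem nx_sub (θ : ℝ) (x y : E 2) : nx θ (x - y) = nx θ x - nx θ y := by
  rw [nx_eq, nx_eq, nx_eq]
  simp only [PiLp.sub_apply]
  ring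

theorem nx_add (θ : ℝ) (x y : E 2) : nx θ (x + y) = nx θ x + nx θ y := by
  rw [nx_eq, nx_eq, nx_eq]
  simp only [PiLp.add_apply]
  ring

theorem nx_smul (θ a : ℝ) (x : E 2) : nx θ (a • x) = a * nx θ x := by
  rw [nx_eq, nx_eq]
  simp only [PiLp.smul_apply, smul_eq_mul]
  ring

theorem norm_sq_E (x : E 2) : ‖x‖ ^ 2 = x 0 ^ 2 + x 1 ^ 2 := by
  rw [EuclideanSpace.norm_sq_eq, Fin.sum_univ_two]
  simp

theorem abs_nx_le (θ : ℝ) (x : E 2) : |nx θ x| ≤ ‖x‖ := by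
  have h : nx θ x ^ 2 ≤ ‖x‖ ^ 2 := by
    rw [norm_sq_E, nx_eq]
    have := Real.sin_sq_add_cos_sq θ
    nlinarith [sq_nonneg (Real.cos θ * x 0 + Real.sin θ * x 1)]
  exact abs_le_of_sq_le_sq h (norm_nonneg _)

theorem measurableSet_Pr (p L ρ : ℝ) (γ : Plt) (τ : Fin 2 → ℤ) : MeasurableSet (Pr p L ρ γ τ) := by
  unfold Pr
  refine MeasurableSet.inter (MeasurableSet.const _) (MeasurableSet.inter ?_ ?_)
  · exact measurableSet_le ((continuous_nx γ.θ).sub continuous_const).abs.measurable measurable_const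
  · exact measurableSet_le continuous_norm.measurable measurable_const

theorem bounded_Pr (p L ρ : ℝ) (γ : Plt) (τ : Fin 2 → ℤ) : Bornology.IsBounded (Pr p L ρ γ τ) :=
  Metric.isBounded_closedBall.subset (s := Pr p L ρ γ τ) (t := Metric.closedBall 0 ρ) fun x hx => by
    simpa using hx.2.2

/-- disjoint regions -/
def D0 (p L ρ : ℝ) (γ : ℕ → Plt) (i : ℕ) (τ : Fin 2 → ℤ) : Set (E 2) :=
  Pr p L ρ (γ i) τ \ ⋃ j ∈ Finset.range i, Pr p L ρ (γ j) τ

theorem D0_subset (p L ρ : ℝ) (γ : ℕ → Plt) (i : ℕ) (τ : Fin 2 → ℤ) : D0 p L ρ γ i τ ⊆ Pr p L ρ (γ i) τ := diff_subset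

theorem rgs_D0 (p L ρ : ℝ) (γ : ℕ → Plt) (N : ℕ) : Rgs (Finset.range N) (D0 p L ρ γ) where
  meas := fun i _ τ => (measurableSet_Pr p L ρ (γ i) τ).diff
    ((Finset.range i).measurableSet_biUnion fun j _ => measurableSet_Pr p L ρ (γ j) τ)
  bdd := fun i _ τ => (bounded_Pr p L ρ (γ i) τ).subset (D0_subset p L ρ γ i τ)
  disj := by
    have key : ∀ i j, i < j → ∀ τ, Disjoint (D0 p L ρ γ i τ) (D0 p L ρ γ j τ) := by
      intro i j hij τ
      rw [Set.disjoint_left]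
      intro x hx hx'
      exact hx'.2 (mem_biUnion (Finset.mem_coe.2 (Finset.mem_range.2 hij)) hx.1)
    intro i _ j _ hij τ
    rcases lt_or_gt_of_ne hij with h | h
    · exact key i j h τ
    · exact (key j i h τ).symm

theorem union_D0 (p L ρ : ℝ) (γ : ℕ → Plt) (N : ℕ) (τ : Fin 2 → ℤ) :
    (⋃ i ∈ Finset.range N, D0 p L ρ γ i τ) = ⋃ i ∈ Finset.range N, Pr p L ρ (γ i) τ := by
  induction N with
  | zero => simp
  | succ N ih =>
    rw [Finset.range_add_one, Finset.set_biUnion_insert, Finset.set_biUnion_insert, ih]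
    unfold D0
    rw [diff_union_self]

/-! ## masses -/

theorem measurable_W (L : ℝ) (B : Set (E 2)) : Measurable (W L B) := by
  unfold W
  have h : StronglyMeasurable fun q : E 2 × E 2 => mL L (q.1 - q.2) :=
    (continuous_mL.comp (continuous_fst.sub continuous_snd)).stronglyMeasurable
  exact (h.integral_prod_right' (ν := volume.restrict B)).measurable

/-- mass of a family of regions -/
noncomputable def ms (L : ℝ) (G : E 2 → ℂ) (B : (Fin 2 → ℤ) → Set (E 2)) : ℝ :=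
  ∑ τ ∈ TT L, ∫ x, W L (B τ) x * ‖(𝓕⁻ (Gc L G τ) : E 2 → ℂ) x‖ ^ 2

section
variable {L : ℝ} {G : E 2 → ℂ} (hL : 0 < L) (hG : Bd 1 G)
include hL hG

theorem int_W (B : Set (E 2)) (τ : Fin 2 → ℤ) : Integrable fun x => W L B x * ‖(𝓕⁻ (Gc L G τ) : E 2 → ℂ) x‖ ^ 2 := by
  refine ((Gc_bd (L := L) hG τ).int_sq).bdd_mul (c := 1) (measurable_W L B).aestronglyMeasurable ?_
  refine Filter.Eventually.of_forall fun x => ?_
  rw [Real.norm_of_nonneg (W_nonneg _ _)]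
  exact W_le_one hL _ x

theorem ms_nonneg (B : (Fin 2 → ℤ) → Set (E 2)) : 0 ≤ ms L G B :=
  Finset.sum_nonneg fun τ _ => integral_nonneg fun x => mul_nonneg (W_nonneg _ _) (by positivity)

theorem ms_mono {A B : (Fin 2 → ℤ) → Set (E 2)} (h : ∀ τ, A τ ⊆ B τ) : ms L G A ≤ ms L G B :=
  Finset.sum_le_sum fun τ _ => integral_mono (int_W hL hG _ τ) (int_W hL hG _ τ) fun x =>
    mul_le_mul_of_nonneg_right (W_mono hL (h τ) x) (by positivity)

theorem ms_union {A B : (Fin 2 → ℤ) → Set (E 2)} (h : ∀ τ, Disjoint (A τ) (B τ)) (hB : ∀ τ, MeasurableSet (B τ)) :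
    ms L G (fun τ => A τ ∪ B τ) = ms L G A + ms L G B := by
  unfold ms
  rw [← Finset.sum_add_distrib]
  refine Finset.sum_congr rfl fun τ _ => ?_
  rw [← integral_add (int_W hL hG _ τ) (int_W hL hG _ τ)]
  congr 1
  ext x
  rw [W_union hL (h τ) (hB τ)]
  ring

theorem ms_le (B : (Fin 2 → ℤ) → Set (E 2)) : ms L G B ≤ ∫ η, ‖G η‖ ^ 2 := by
  rw [← sum_mass hL hG]
  refine Finset.sum_le_sum fun τ _ => integral_mono (int_W hL hG _ τ) (Gc_bd hG τ).int_sq fun x => ?_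
  have := W_le_one hL (B τ) x
  nlinarith [sq_nonneg ‖(𝓕⁻ (Gc L G τ) : E 2 → ℂ) x‖]

/-- **greedy choice of the plates** -/
theorem greedy (p ρ : ℝ) {lam : ℝ} (hlam : 0 < lam) : ∃ (N : ℕ) (γ : ℕ → Plt), N * lam ≤ ∫ η, ‖G η‖ ^ 2 ∧
    (∀ i < N, 0 ≤ (γ i).v ∧ (γ i).v ≤ 10) ∧
    ∀ γ' : Plt, 0 ≤ γ'.v → γ'.v ≤ 10 →
      ms L G (fun τ => Pr p L ρ γ' τ \ ⋃ i ∈ Finset.range N, Pr p L ρ (γ i) τ) < lam := by
  classical
  set P : ℕ → Prop := fun N => ∃ γ : ℕ → Plt, (∀ i < N, 0 ≤ (γ i).v ∧ (γ i).v ≤ 10) ∧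
    N * lam ≤ ms L G (fun τ => ⋃ i ∈ Finset.range N, Pr p L ρ (γ i) τ) with hP
  have h0 : P 0 := ⟨fun _ => default, by simp, by simpa using ms_nonneg hL hG _⟩
  have hbd : ∀ N, P N → N ≤ ⌈(∫ η, ‖G η‖ ^ 2) / lam⌉₊ := by
    rintro N ⟨γ, _, h⟩
    have h1 := h.trans (ms_le hL hG _)
    have h2 : (N : ℝ) ≤ (∫ η, ‖G η‖ ^ 2) / lam := by rw [le_div_iff₀ hlam]; exact h1
    exact_mod_cast h2.trans (Nat.le_ceil _)
  have hmax := Nat.findGreatest_spec (P := P) (Nat.zero_le (⌈(∫ η, ‖G η‖ ^ 2) / lam⌉₊)) h0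
  set N := Nat.findGreatest P ⌈(∫ η, ‖G η‖ ^ 2) / lam⌉₊ with hN
  obtain ⟨γ, hv, hm⟩ := hmax
  refine ⟨N, γ, hm.trans (ms_le hL hG _), hv, fun γ' h1 h2 => ?_⟩
  by_contra hcon
  push Not at hcon
  have hP1 : P (N + 1) := by
    refine ⟨Function.update γ N γ', ?_, ?_⟩
    · intro i hi
      by_cases hiN : i = N
      · subst hiN
        rw [Function.update_self]
        exact ⟨h1, h2⟩
      · rw [Function.update_of_ne hiN]
        exact hv i (by omega)
    · have e1 : (fun τ => ⋃ i ∈ Finset.range (N + 1), Pr p L ρ (Function.update γ N γ' i) τ) =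
          fun τ => (⋃ i ∈ Finset.range N, Pr p L ρ (γ i) τ) ∪ (Pr p L ρ γ' τ \ ⋃ i ∈ Finset.range N, Pr p L ρ (γ i) τ) := by
        ext1 τ
        rw [Finset.range_add_one, Finset.set_biUnion_insert, Function.update_self]
        have e2 : (⋃ i ∈ Finset.range N, Pr p L ρ (Function.update γ N γ' i) τ) = ⋃ i ∈ Finset.range N, Pr p L ρ (γ i) τ := by
          refine iUnion₂_congr fun i hi => ?_
          rw [Function.update_of_ne (by have := Finset.mem_range.1 hi; omega)]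
        rw [e2, union_diff_self, union_comm]
      rw [e1, ms_union hL hG (fun τ => disjoint_sdiff_right) fun τ => (measurableSet_Pr p L ρ γ' τ).diff
        ((Finset.range N).measurableSet_biUnion fun j _ => measurableSet_Pr p L ρ (γ j) τ)]
      push_cast
      linarith
  have := Nat.le_findGreatest (hbd _ hP1) hP1
  omega

end

end Vale.Agent.P076.ASM
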