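import Vale.Agent.P076.ASM.Mol

/-! # P076 / ASM : the spatial weights `W L B = 1_B * Φ_L` and the pieces `𝓕 W ⋆ G` -/

open MeasureTheory Complex FourierTransform SchwartzMap Convolution Set
open scoped ContDiff

set_option linter.all false

namespace Vale.Agent.P076.ASM

/-- the scaled mollifier -/
noncomputable def mL (L : ℝ) (x : E 2) : ℝ := L⁻¹ ^ 2 * mol (L⁻¹ • x)

variable {L : ℝ}

theorem mL_nonneg (x : E 2) : 0 ≤ mL L x := mul_nonneg (by positivity) (mol_mol.nonneg _)

theorem continuous_mL : Continuous (mL L) := by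
  unfold mL
  exact continuous_const.mul (mol_mol.cont.comp (continuous_const_smul _))

theorem integrable_mL (hL : 0 < L) : Integrable (mL L) := by
  unfold mL
  exact (mol_mol.int.comp_smul (inv_ne_zero hL.ne')).const_mul _

theorem integral_mL (hL : 0 < L) : ∫ x, mL L x = 1 := by
  unfold mL
  rw [integral_const_mul, Measure.integral_comp_smul, mol_mol.one]
  simp only [finrank_euclideanSpace, Fintype.card_fin, smul_eq_mul, mul_one]
  rw [abs_of_pos (by positivity)]
  field_simp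

theorem bdd_mL (L : ℝ) : ∃ C : ℝ, 0 ≤ C ∧ ∀ x, mL L x ≤ C := by
  obtain ⟨C, hC0, hC⟩ := mol_mol.dec 0
  refine ⟨L⁻¹ ^ 2 * C, by positivity, fun x => ?_⟩
  unfold mL
  refine mul_le_mul_of_nonneg_left ?_ (by positivity)
  simpa using hC (L⁻¹ • x)

/-- the weight of the region `B` -/
noncomputable def W (L : ℝ) (B : Set (E 2)) (x : E 2) : ℝ := ∫ z in B, mL L (x - z)

theorem integrable_mL_sub (hL : 0 < L) (x : E 2) : Integrable fun z => mL L (x - z) :=
  (integrable_mL hL).comp_sub_left x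

theorem W_nonneg (B : Set (E 2)) (x : E 2) : 0 ≤ W L B x := integral_nonneg fun _ => mL_nonneg _

theorem W_univ (hL : 0 < L) (x : E 2) : W L univ x = 1 := by
  unfold W
  rw [Measure.restrict_univ, integral_sub_left_eq_self (mL L) volume x, integral_mL hL]

theorem W_mono (hL : 0 < L) {A B : Set (E 2)} (h : A ⊆ B) (x : E 2) : W L A x ≤ W L B x :=
  setIntegral_mono_set (integrable_mL_sub hL x).integrableOn (Filter.Eventually.of_forall fun _ => mL_nonneg _)
    h.eventuallyLE

theorem W_le_one (hL : 0 < L) (B : Set (E 2)) (x : E 2) : W L B x ≤ 1 := by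
  rw [← W_univ hL x]
  exact W_mono hL (subset_univ _) x

theorem W_union (hL : 0 < L) {A B : Set (E 2)} (h : Disjoint A B) (hB : MeasurableSet B) (x : E 2) :
    W L (A ∪ B) x = W L A x + W L B x :=
  setIntegral_union h hB (integrable_mL_sub hL x).integrableOn (integrable_mL_sub hL x).integrableOn

theorem W_empty (x : E 2) : W L ∅ x = 0 := by unfold W; simp

theorem W_union_le (hL : 0 < L) {A B : Set (E 2)} (hA : MeasurableSet A) (hB : MeasurableSet B) (x : E 2) :
    W L (A ∪ B) x ≤ W L A x + W L B x := by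
  have h1 : A ∪ B = A ∪ (B \ A) := by simp
  rw [h1, W_union hL disjoint_sdiff_right (hB.diff hA)]
  gcongr
  exact W_mono hL diff_subset x

theorem W_compl (hL : 0 < L) {B : Set (E 2)} (hB : MeasurableSet B) (x : E 2) : W L Bᶜ x = 1 - W L B x := by
  have h := W_union hL (A := B) (B := Bᶜ) disjoint_compl_right hB.compl x
  rw [union_compl_self, W_univ hL] at h
  linarith

theorem W_eq_conv {B : Set (E 2)} (hB : MeasurableSet B) :
    W L B = (B.indicator (fun _ => (1 : ℝ))) ⋆[ContinuousLinearMap.mul ℝ ℝ] (mL L) := by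
  ext x
  rw [convolution_def]
  unfold W
  rw [← integral_indicator hB]
  congr 1
  ext t
  by_cases h : t ∈ B <;> simp [h]

theorem continuous_W (hL : 0 < L) {B : Set (E 2)} (hB : MeasurableSet B) (hB2 : Bornology.IsBounded B) : Continuous (W L B) := by
  rw [W_eq_conv hB]
  obtain ⟨C, hC0, hC⟩ := bdd_mL L
  refine BddAbove.continuous_convolution_right_of_integrable _ ?_ ?_ continuous_mL
  · refine ⟨C, ?_⟩
    rintro _ ⟨x, rfl⟩
    simp only
    rw [Real.norm_of_nonneg (mL_nonneg x)]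
    exact hC x
  · exact (integrable_indicator_iff hB).2 (integrableOn_const (hB2.measure_lt_top.ne))

theorem integrable_W (hL : 0 < L) {B : Set (E 2)} (hB : MeasurableSet B) (hB2 : Bornology.IsBounded B) : Integrable (W L B) := by
  rw [W_eq_conv hB]
  exact ((integrable_indicator_iff hB).2 (integrableOn_const (hB2.measure_lt_top.ne))).integrable_convolution _ (integrable_mL hL)

/-- complex version -/
noncomputable def Wc (L : ℝ) (B : Set (E 2)) (x : E 2) : ℂ := ((W L B x : ℝ) : ℂ)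

theorem Wc_eq_conv {B : Set (E 2)} (hB : MeasurableSet B) :
    Wc L B = (B.indicator (fun _ => (1 : ℂ))) ⋆[ContinuousLinearMap.mul ℂ ℂ] (fun x => ((mL L x : ℝ) : ℂ)) := by
  ext x
  rw [convolution_def]
  unfold Wc W
  rw [← integral_indicator hB, ← integral_complex_ofReal]
  congr 1
  ext t
  by_cases h : t ∈ B <;> simp [h]

theorem fourier_mL (hL : 0 < L) (η : E 2) : (𝓕 (fun x => ((mL L x : ℝ) : ℂ)) : E 2 → ℂ) η =
    (𝓕 (fun x => ((mol x : ℝ) : ℂ)) : E 2 → ℂ) (L • η) := by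
  rw [Real.fourier_eq, Real.fourier_eq]
  have h := Measure.integral_comp_smul (μ := (volume : Measure (E 2)))
    (fun v : E 2 => Real.fourierChar (-inner ℝ v (L • η)) • ((mol v : ℝ) : ℂ)) L⁻¹
  have h2 : |((L⁻¹) ^ Module.finrank ℝ (E 2))⁻¹| = L ^ 2 := by
    simp only [finrank_euclideanSpace, Fintype.card_fin]
    rw [abs_of_pos (by positivity)]
    simp
  rw [h2] at h
  have h3 : ∫ v : E 2, Real.fourierChar (-inner ℝ v (L • η)) • ((mol v : ℝ) : ℂ) =
      (L⁻¹ ^ 2 : ℝ) • ∫ x : E 2, Real.fourierChar (-inner ℝ (L⁻¹ • x) (L • η)) • ((mol (L⁻¹ • x) : ℝ) : ℂ) := by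
    rw [h, smul_smul]
    have : L⁻¹ ^ 2 * L ^ 2 = 1 := by field_simp
    rw [this, one_smul]
  rw [h3, ← integral_smul]
  congr 1
  ext v
  have h4 : inner ℝ (L⁻¹ • v) (L • η) = inner ℝ v η := by
    rw [inner_smul_left, inner_smul_right]
    simp
    field_simp
  rw [h4]
  unfold mL
  rw [smul_comm]
  congr 1
  push_cast
  rw [Complex.real_smul]
  push_cast
  ring

theorem fourier_mL_ne (hL : 0 < L) {η : E 2} (h : (𝓕 (fun x => ((mL L x : ℝ) : ℂ)) : E 2 → ℂ) η ≠ 0) : ‖η‖ ≤ 1 / L := by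
  rw [fourier_mL hL] at h
  have := mol_mol.supp _ h
  rw [norm_smul, Real.norm_of_nonneg hL.le] at this
  rw [le_div_iff₀ hL]
  linarith

theorem integrable_ind {B : Set (E 2)} (hB : MeasurableSet B) (hB2 : Bornology.IsBounded B) :
    Integrable (B.indicator (fun _ => (1 : ℂ))) :=
  (integrable_indicator_iff hB).2 (integrableOn_const (hB2.measure_lt_top.ne))

theorem fourier_W {B : Set (E 2)} (hL : 0 < L) (hB : MeasurableSet B) (hB2 : Bornology.IsBounded B) (η : E 2) :
    (𝓕 (Wc L B) : E 2 → ℂ) η = (𝓕 (B.indicator (fun _ => (1 : ℂ))) : E 2 → ℂ) η * (𝓕 (fun x => ((mL L x : ℝ) : ℂ)) : E 2 → ℂ) η := by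
  rw [Wc_eq_conv hB]
  exact Real.fourier_mul_convolution_eq (integrable_ind hB hB2) (integrable_mL hL).ofReal η

theorem fourier_W_ne {B : Set (E 2)} (hL : 0 < L) (hB : MeasurableSet B) (hB2 : Bornology.IsBounded B) {η : E 2}
    (h : (𝓕 (Wc L B) : E 2 → ℂ) η ≠ 0) : ‖η‖ ≤ 1 / L := by
  rw [fourier_W hL hB hB2] at h
  exact fourier_mL_ne hL (right_ne_zero_of_mul h)

theorem continuous_Wc (hL : 0 < L) {B : Set (E 2)} (hB : MeasurableSet B) (hB2 : Bornology.IsBounded B) : Continuous (Wc L B) :=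
  continuous_ofReal.comp (continuous_W hL hB hB2)

theorem integrable_Wc (hL : 0 < L) {B : Set (E 2)} (hB : MeasurableSet B) (hB2 : Bornology.IsBounded B) : Integrable (Wc L B) :=
  (integrable_W hL hB hB2).ofReal

theorem continuous_fourier {f : E 2 → ℂ} (hf : Integrable f) : Continuous (𝓕 f : E 2 → ℂ) := by
  have h1 : (𝓕 f : E 2 → ℂ) = fun x => (𝓕⁻ f : E 2 → ℂ) (-x) := by
    ext x
    rw [Real.fourierInv_eq_fourier_neg, neg_neg]
  rw [h1]
  exact (continuous_fourierInv hf).comp continuous_neg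

theorem hasCompactSupport_of {f : E 2 → ℂ} {r : ℝ} (h : ∀ η, f η ≠ 0 → ‖η‖ ≤ r) : HasCompactSupport f :=
  HasCompactSupport.intro (isCompact_closedBall 0 r) fun x hx => by
    by_contra h'
    exact hx (by simpa using h x h')

theorem compact_fW (hL : 0 < L) {B : Set (E 2)} (hB : MeasurableSet B) (hB2 : Bornology.IsBounded B) :
    HasCompactSupport (𝓕 (Wc L B) : E 2 → ℂ) := hasCompactSupport_of fun η => fourier_W_ne hL hB hB2

theorem continuous_fW (hL : 0 < L) {B : Set (E 2)} (hB : MeasurableSet B) (hB2 : Bornology.IsBounded B) :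
    Continuous (𝓕 (Wc L B) : E 2 → ℂ) := continuous_fourier (integrable_Wc hL hB hB2)

theorem integrable_fW (hL : 0 < L) {B : Set (E 2)} (hB : MeasurableSet B) (hB2 : Bornology.IsBounded B) :
    Integrable (𝓕 (Wc L B) : E 2 → ℂ) := (continuous_fW hL hB hB2).integrable_of_hasCompactSupport (compact_fW hL hB hB2)

/-- the frequency data of `W L B · 𝓕⁻ G` -/
noncomputable def pc (L : ℝ) (B : Set (E 2)) (G : E 2 → ℂ) : E 2 → ℂ :=
  (𝓕 (Wc L B) : E 2 → ℂ) ⋆[ContinuousLinearMap.mul ℂ ℂ] G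

theorem inv_pc (hL : 0 < L) {B : Set (E 2)} (hB : MeasurableSet B) (hB2 : Bornology.IsBounded B) {G : E 2 → ℂ}
    (hG : Integrable G) (x : E 2) : (𝓕⁻ (pc L B G) : E 2 → ℂ) x = (W L B x : ℝ) * (𝓕⁻ G : E 2 → ℂ) x := by
  unfold pc
  rw [Real.fourierInv_eq_fourier_neg, Real.fourier_mul_convolution_eq (integrable_fW hL hB hB2) hG,
    ← Real.fourierInv_eq_fourier_neg, ← Real.fourierInv_eq_fourier_neg]
  have h := Continuous.fourierInv_fourier_eq (continuous_Wc hL hB hB2) (integrable_Wc hL hB hB2) (integrable_fW hL hB hB2)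
  rw [h]
  rfl

theorem continuous_pc (hL : 0 < L) {B : Set (E 2)} (hB : MeasurableSet B) (hB2 : Bornology.IsBounded B) {G : E 2 → ℂ}
    (hG : Integrable G) : Continuous (pc L B G) :=
  (compact_fW hL hB hB2).continuous_convolution_left _ (continuous_fW hL hB hB2) hG.locallyIntegrable

theorem pc_ne (hL : 0 < L) {B : Set (E 2)} (hB : MeasurableSet B) (hB2 : Bornology.IsBounded B) {G : E 2 → ℂ}
    {η : E 2} (h : pc L B G η ≠ 0) : ∃ ζ, G ζ ≠ 0 ∧ ‖η - ζ‖ ≤ 1 / L := by
  by_contra hx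
  push Not at hx
  apply h
  unfold pc
  rw [convolution_def]
  rw [← integral_zero (E 2) ℂ (μ := volume)]
  congr 1
  ext t
  by_cases h1 : (𝓕 (Wc L B) : E 2 → ℂ) t = 0
  · simp [h1]
  by_cases h2 : G (η - t) = 0
  · simp [h2]
  exfalso
  have h3 := hx _ h2
  have h4 := fourier_W_ne hL hB hB2 h1
  rw [sub_sub_cancel] at h3
  linarith

end Vale.Agent.P076.ASM
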